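import Vale.Agent.P300.H86.Chart

/-!
# P300 [CHOW]: structures and exact statements

`ProjAtlas`: the cone over an injectively immersed compact complex surface of projective space.
`Aff`: an affine part of it, with a proper linear projection to `ℂ²`.
-/

open Complex Filter Set MeasureTheory
open scoped Topology ContDiff ENNReal ComplexConjugate

namespace Vale.Agent.P300.H86

/-- A closed subset `Z` of `ℂⁿ` with holomorphic charts and a linear projection `pr` to `ℂ²` which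
is proper on `Z` (linear growth) and locally biholomorphic on a dense set of each chart. -/
structure Aff (n : ℕ) where
  Z : Set (Fin n → ℂ)
  ι : Type
  cnt : Countable ι
  D : ι → Set W
  f : ι → W → (Fin n → ℂ)
  pr : (Fin n → ℂ) →L[ℂ] W
  closed : IsClosed Z
  openD : ∀ i, IsOpen (D i)
  diff : ∀ i, DifferentiableOn ℂ (f i) (D i)
  inj : ∀ i, InjOn (f i) (D i)
  mem : ∀ i, ∀ u ∈ D i, f i u ∈ Z
  cover : ∀ v ∈ Z, ∃ i, ∃ u ∈ D i, f i u = v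
  openImg : ∀ i, ∀ u ∈ D i, ∀ U ∈ 𝓝 u, f i '' (U ∩ D i) ∈ 𝓝[Z] (f i u)
  growth : ∃ C : ℝ, ∀ v ∈ Z, ‖v‖ ≤ C * (1 + ‖pr v‖)
  dense : ∀ i, ∀ U : Set W, IsOpen U → U ⊆ D i → U.Nonempty →
    ∃ u ∈ U, Jac (fun x => pr (f i x)) u ≠ 0

namespace Aff

variable {n : ℕ} (S : Aff n)

/-- the projection in the chart `i` -/
noncomputable def p (i : S.ι) (u : W) : W := S.pr (S.f i u)

/-- the fibre -/
def fib (w : W) : Set (Fin n → ℂ) := {v | v ∈ S.Z ∧ S.pr v = w}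

/-- [PU] ambient partition of unity near the part of `Z` over a compact set. -/
def PUProp : Prop := ∀ K : Set W, IsCompact K →
  ∃ (m : ℕ) (Ψ : Fin m → (Fin n → ℂ) → ℝ) (idx : Fin m → S.ι),
    (∀ k, ContDiff ℝ ∞ (Ψ k)) ∧ (∀ k, HasCompactSupport (Ψ k)) ∧
    (∀ k, S.Z ∩ tsupport (Ψ k) ⊆ S.f (idx k) '' S.D (idx k)) ∧
    ∃ O : Set (Fin n → ℂ), IsOpen O ∧ (∀ v ∈ S.Z, S.pr v ∈ K → v ∈ O) ∧
      ∀ x ∈ O, ∑ k, Ψ k x = 1

/-- [FINF] almost every fibre is finite and noncritical. -/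
def FinfProp : Prop := ∀ᵐ w : W, (S.fib w).Finite ∧
  ∀ i, ∀ u ∈ S.D i, S.p i u = w → Jac (S.p i) u ≠ 0

/-- pull back to a chart, extended by zero -/
noncomputable def pull (i : S.ι) (Φ : (Fin n → ℂ) → ℂ) (u : W) : ℂ :=
  open Classical in if u ∈ S.D i then Φ (S.f i u) else 0

/-- [EXT] the pull back of a compactly supported function whose support meets `Z` inside the image
of the chart. -/
def ExtProp : Prop := ∀ (i : S.ι) (Φ : (Fin n → ℂ) → ℂ), ContDiff ℝ ∞ Φ → HasCompactSupport Φ →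
  S.Z ∩ tsupport Φ ⊆ S.f i '' S.D i →
    ContDiff ℝ 1 (S.pull i Φ) ∧ HasCompactSupport (S.pull i Φ) ∧ tsupport (S.pull i Φ) ⊆ S.D i

/-- the trace -/
noncomputable def T (g : (Fin n → ℂ) → ℂ) (w : W) : ℂ := ∑' v : S.fib w, g v

/-- [TR] -/
def TrProp : Prop := ∀ g : (Fin n → ℂ) → ℂ, Differentiable ℂ g →
  LocallyIntegrable (S.T g) ∧ WeakHol (S.T g)

/-- [AFFPOLY] the characteristic polynomial of a linear form. -/
def PolyProp : Prop := ∀ ξ : (Fin n → ℂ) →L[ℂ] ℂ,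
  ∃ (N : ℕ) (G : MvPolynomial (Fin 4) ℂ), G.IsHomogeneous N ∧
    ∀ᵐ w : W, ∃ s : Finset (Fin n → ℂ), (∀ v, v ∈ s ↔ v ∈ S.Z ∧ S.pr v = w) ∧ s.card = N ∧
      ∀ t : ℂ, MvPolynomial.eval ![1, w 0, w 1, t] G = ∏ v ∈ s, (t - ξ v)

/-- hypothesis for [V], [N], [J]: `G` is the characteristic polynomial of `ξ`. -/
def IsChar (ξ : (Fin n → ℂ) →L[ℂ] ℂ) (N : ℕ) (G : MvPolynomial (Fin 4) ℂ) : Prop :=
  ∀ᵐ w : W, ∃ s : Finset (Fin n → ℂ), (∀ v, v ∈ s ↔ v ∈ S.Z ∧ S.pr v = w) ∧ s.card = N ∧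
      ∀ t : ℂ, MvPolynomial.eval ![1, w 0, w 1, t] G = ∏ v ∈ s, (t - ξ v)

/-- [V] `G` vanishes on `Z`. -/
def VProp : Prop := ∀ ξ N G, S.IsChar ξ N G → ∀ v ∈ S.Z,
  MvPolynomial.eval ![1, S.pr v 0, S.pr v 1, ξ v] G = 0

/-- [N] `G` does not vanish at a value `(w, t)` not taken by `(pr, ξ)` on `Z`. -/
def NProp : Prop := ∀ ξ N G, S.IsChar ξ N G → ∀ (w : W) (t : ℂ),
  (∀ v ∈ S.Z, S.pr v = w → ξ v ≠ t) → MvPolynomial.eval ![1, w 0, w 1, t] G ≠ 0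

/-- [J] `∂_t G ≠ 0` at a point of `Z` where `pr` is locally biholomorphic and which is separated by
`(pr, ξ)` from all other points of `Z`. -/
def JProp : Prop := ∀ ξ N G, S.IsChar ξ N G → ∀ i, ∀ u ∈ S.D i, Jac (S.p i) u ≠ 0 →
  (∀ v ∈ S.Z, S.pr v = S.p i u → ξ v = ξ (S.f i u) → v = S.f i u) →
  MvPolynomial.eval ![1, S.p i u 0, S.p i u 1, ξ (S.f i u)] (MvPolynomial.pderiv 3 G) ≠ 0

end Aff

/-- The cone `C` over a compact complex surface in projective space, with holomorphic charts. -/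
structure ProjAtlas {n : ℕ} (C : Set (Fin n → ℂ)) where
  ι : Type
  cnt : Countable ι
  D : ι → Set W
  F : ι → W → (Fin n → ℂ)
  /-- `C` is a cone without the origin, closed together with the origin -/
  zero : (0 : Fin n → ℂ) ∉ C
  smul : ∀ v ∈ C, ∀ s : ℂ, s ≠ 0 → s • v ∈ C
  closed : IsClosed (C ∪ {0})
  openD : ∀ i, IsOpen (D i)
  diff : ∀ i, DifferentiableOn ℂ (F i) (D i)
  mem : ∀ i, ∀ u ∈ D i, F i u ∈ C
  cover : ∀ v ∈ C, ∃ i, ∃ u ∈ D i, ∃ s : ℂ, s ≠ 0 ∧ v = s • F i u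
  inj : ∀ i, ∀ u ∈ D i, ∀ u' ∈ D i, ∀ s : ℂ, F i u' = s • F i u → u' = u
  imm : ∀ i, ∀ u ∈ D i, LinearIndependent ℂ
    ![F i u, fderiv ℂ (F i) u (Pi.single 0 1), fderiv ℂ (F i) u (Pi.single 1 1)]
  openImg : ∀ i, ∀ u ∈ D i, ∀ U ∈ 𝓝 u,
    {v | ∃ s : ℂ, ∃ u' ∈ U ∩ D i, v = s • F i u'} ∈ 𝓝[C] (F i u)

/-- the homogeneous polynomials vanishing on `C` -/
def vanish {n : ℕ} (C : Set (Fin n → ℂ)) : Set (MvPolynomial (Fin n) ℂ) :=
  {P | (∃ N, P.IsHomogeneous N) ∧ ∀ v ∈ C, MvPolynomial.eval v P = 0}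

/-- **[CHOW]**: output. `C` is the zero set of the homogeneous polynomials vanishing on it, and the
Jacobian criterion holds: the common kernel of their differentials at `F i u` is the span of `F`,
`∂₁F`, `∂₂F`. -/
def ChowProp : Prop := ∀ {n : ℕ} (C : Set (Fin n → ℂ)) (A : ProjAtlas C),
  (∀ v : Fin n → ℂ, v ≠ 0 → (∀ P ∈ vanish C, MvPolynomial.eval v P = 0) → v ∈ C) ∧
  ∀ i, ∀ u ∈ A.D i, ∀ κ : Fin n → ℂ,
    (∀ P ∈ vanish C, ∑ b, κ b * MvPolynomial.eval (A.F i u) (MvPolynomial.pderiv b P) = 0) →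
    κ ∈ Submodule.span ℂ (Set.range
      ![A.F i u, fderiv ℂ (A.F i) u (Pi.single 0 1), fderiv ℂ (A.F i) u (Pi.single 1 1)])

end Vale.Agent.P300.H86
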