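import Vale.Agent.P300.H86.Spec

/-!
# P300 [CHOW]: pull back of compactly supported functions to a chart
-/

open Complex Filter Set MeasureTheory
open scoped Topology ContDiff ENNReal ComplexConjugate

namespace Vale.Agent.P300.H86

namespace Aff

variable {n : ℕ} (S : Aff n)

/-- the part of the chart lying over a compact set whose trace on `Z` is contained in the image of
the chart is compact. -/
theorem isCompact_chart {i : S.ι} {K : Set (Fin n → ℂ)} (hK : IsCompact K)
    (h : S.Z ∩ K ⊆ S.f i '' S.D i) : IsCompact {u | u ∈ S.D i ∧ S.f i u ∈ K} := by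
  classical
  -- the inverse of the chart
  let inv : (Fin n → ℂ) → W := Function.invFunOn (S.f i) (S.D i)
  have hinv : ∀ u ∈ S.D i, inv (S.f i u) = u := fun u hu => (S.inj i).leftInvOn_invFunOn hu
  have hcont : ContinuousOn inv (S.Z ∩ K) := by
    intro v hv
    obtain ⟨u, hu, rfl⟩ := h hv
    have h1 : Tendsto inv (𝓝[S.Z] (S.f i u)) (𝓝 u) := by
      intro U hU
      rw [Filter.mem_map]
      refine mem_of_superset (S.openImg i u hu U hU) ?_
      rintro _ ⟨x, hx, rfl⟩
      show inv (S.f i x) ∈ U
      rw [hinv x hx.2]; exact hx.1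
    have h2 : ContinuousWithinAt inv S.Z (S.f i u) := by
      have : inv (S.f i u) = u := hinv u hu
      unfold ContinuousWithinAt
      rw [this]; exact h1
    exact h2.mono inter_subset_left
  have hc : IsCompact (S.Z ∩ K) := hK.inter_left S.closed
  have himg := hc.image_of_continuousOn hcont
  have heq : {u | u ∈ S.D i ∧ S.f i u ∈ K} = inv '' (S.Z ∩ K) := by
    ext u
    constructor
    · rintro ⟨hu, hk⟩
      exact ⟨S.f i u, ⟨S.mem i u hu, hk⟩, hinv u hu⟩
    · rintro ⟨v, hv, rfl⟩
      obtain ⟨u, hu, rfl⟩ := h hv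
      rw [hinv u hu]
      exact ⟨hu, hv.2⟩
  rw [heq]
  exact himg

theorem extProp : S.ExtProp := by
  intro i Φ hΦ hc hs
  have hK := S.isCompact_chart hc hs
  set K' : Set W := {u | u ∈ S.D i ∧ S.f i u ∈ tsupport Φ} with hK'
  have hK'D : K' ⊆ S.D i := fun u hu => hu.1
  have hsupp : Function.support (S.pull i Φ) ⊆ K' := by
    intro u hu
    by_cases huD : u ∈ S.D i
    · refine ⟨huD, ?_⟩
      by_contra hn
      apply hu
      unfold pull
      rw [if_pos huD]
      exact image_eq_zero_of_notMem_tsupport hn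
    · exact absurd (by unfold pull; rw [if_neg huD]) hu
  have hts : tsupport (S.pull i Φ) ⊆ K' := closure_minimal hsupp hK.isClosed
  refine ⟨?_, hK.of_isClosed_subset (isClosed_tsupport _) hts, hts.trans hK'D⟩
  rw [contDiff_iff_contDiffAt]
  intro u
  by_cases hu : u ∈ S.D i
  · have h1 : ContDiffAt ℝ 1 (fun x => Φ (S.f i x)) u := by
      have h2 : ContDiffOn ℝ 1 (S.f i) (S.D i) := by
        have := P268.contDiffOn_of_differentiableOn (S.openD i) (S.diff i) 1
        exact_mod_cast this.restrict_scalars ℝ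
      have h3 : ContDiffAt ℝ 1 (S.f i) u := (h2 u hu).contDiffAt ((S.openD i).mem_nhds hu)
      have h4 : ContDiffAt ℝ 1 Φ (S.f i u) := (hΦ.of_le (by simp)).contDiffAt
      exact h4.comp u h3
    refine h1.congr_of_eventuallyEq ?_
    filter_upwards [(S.openD i).mem_nhds hu] with x hx
    unfold pull; rw [if_pos hx]
  · have h1 : u ∉ K' := fun h => hu h.1
    refine (contDiffAt_const (c := (0 : ℂ))).congr_of_eventuallyEq ?_
    filter_upwards [hK.isClosed.isOpen_compl.mem_nhds h1] with x hx
    by_contra hne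
    exact hx (hsupp hne)

end Aff

end Vale.Agent.P300.H86
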