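import Vale.Agent.P300.H86.Tr

/-!
# P300 [CHOW]: weak holomorphy of the trace, second part
-/

open Complex Filter Set MeasureTheory
open scoped Topology ContDiff ENNReal ComplexConjugate

namespace Vale.Agent.P300.H86

namespace Aff

variable {n : ℕ} (S : Aff n)

theorem integrableOn_jac {i : S.ι} {φ : W → ℂ} (hφ : Continuous φ) (hc : HasCompactSupport φ)
    (hs : tsupport φ ⊆ S.D i) :
    IntegrableOn (fun u => (‖Jac (S.p i) u‖ ^ 2 : ℝ) • φ u) (S.D i) := by
  have h1 : ContinuousOn (fun u => (‖Jac (S.p i) u‖ ^ 2 : ℝ) • φ u) (tsupport φ) := by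
    have := continuousOn_Jac (S.openD i) (S.p_diff i)
    exact ((this.mono hs).norm.pow 2).smul hφ.continuousOn
  have h2 : IntegrableOn (fun u => (‖Jac (S.p i) u‖ ^ 2 : ℝ) • φ u) (tsupport φ) :=
    h1.integrableOn_compact hc
  have h3 : IntegrableOn (fun u => (‖Jac (S.p i) u‖ ^ 2 : ℝ) • φ u) (tsupport φ)ᶜ := by
    refine (integrableOn_zero : IntegrableOn (fun _ : W => (0 : ℂ)) _ volume).congr_fun
      (fun u hu => ?_) (isClosed_tsupport φ).measurableSet.compl
    rw [image_eq_zero_of_notMem_tsupport hu, smul_zero]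
  have h4 := h2.union h3
  rw [union_compl_self] at h4
  exact h4.mono_set (subset_univ _)

theorem pull_apply {i : S.ι} {Φ : (Fin n → ℂ) → ℂ} {u : W} (hu : u ∈ S.D i) :
    S.pull i Φ u = Φ (S.f i u) := by
  unfold pull; rw [if_pos hu]

/-- decomposition of a sum over the fibre by the partition of unity -/
theorem sum_decomp {w : W} (hfin : (S.fib w).Finite)
    (hw : ∀ i, ∀ u ∈ S.D i, S.p i u = w → Jac (S.p i) u ≠ 0) {m : ℕ} (idx : Fin m → S.ι)
    (H : Fin m → (Fin n → ℂ) → ℂ) (G : (Fin n → ℂ) → ℂ)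
    (hH : ∀ k, ∀ v ∈ S.fib w, v ∉ S.f (idx k) '' S.D (idx k) → H k v = 0)
    (hsum : ∀ v ∈ S.fib w, ∑ k, H k v = G v) :
    ∑' v : S.fib w, G v = ∑ k, ∑' u : Sfib (S.D (idx k)) (S.p (idx k)) w, H k (S.f (idx k) u) := by
  have : Finite (S.fib w) := hfin
  have : Fintype (S.fib w) := Fintype.ofFinite _
  have h1 : ∑' v : S.fib w, G v = ∑ k, ∑' v : S.fib w, H k v := by
    simp_rw [tsum_fintype]
    rw [Finset.sum_comm]
    exact Finset.sum_congr rfl fun v _ => (hsum v v.2).symm
  rw [h1]
  exact Finset.sum_congr rfl fun k _ => S.tsum_chart hw (idx k) (H k) (hH k)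

theorem ext_mul (hE : S.ExtProp) {i : S.ι} {Ψ : (Fin n → ℂ) → ℝ} {g : (Fin n → ℂ) → ℂ}
    (hΨ : ContDiff ℝ ∞ Ψ) (hc : HasCompactSupport Ψ) (hg : ContDiff ℝ ∞ g)
    (hs : S.Z ∩ tsupport Ψ ⊆ S.f i '' S.D i) :
    ContDiff ℝ 1 (S.pull i (fun v => (Ψ v : ℂ) * g v)) ∧
      HasCompactSupport (S.pull i (fun v => (Ψ v : ℂ) * g v)) ∧
      tsupport (S.pull i (fun v => (Ψ v : ℂ) * g v)) ⊆ S.D i := by
  have hcΨ : HasCompactSupport (fun v => (Ψ v : ℂ)) := hc.comp_left (g := fun x : ℝ => (x : ℂ))
    (by simp)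
  refine hE i _ ?_ ?_ ?_
  · exact ((Complex.ofRealCLM.contDiff).comp hΨ).mul hg
  · exact hcΨ.mul_right
  · refine Subset.trans (inter_subset_inter_right _ ?_) hs
    refine Subset.trans (closure_mono (Function.support_mul_subset_left _ _)) ?_
    refine closure_mono ?_
    intro v hv
    simpa using hv

theorem locInt (hPU : S.PUProp) (hF : S.FinfProp) (hE : S.ExtProp) {g : (Fin n → ℂ) → ℂ}
    (hg : ContDiff ℝ ∞ g) : LocallyIntegrable (S.T g) := by
  intro w0
  refine ⟨Metric.closedBall w0 1, Metric.closedBall_mem_nhds _ one_pos, ?_⟩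
  obtain ⟨m, Ψ, idx, hΨ, hΨc, hΨs, O, hO, hKO, hsum⟩ := hPU (Metric.closedBall w0 1)
    (isCompact_closedBall w0 1)
  have h1 : ∀ k, Integrable (fun w => ∑' u : Sfib (S.D (idx k)) (S.p (idx k)) w,
      S.pull (idx k) (fun v => (Ψ k v : ℂ) * g v) u) := by
    intro k
    obtain ⟨e1, e2, e3⟩ := S.ext_mul hE (hΨ k) (hΨc k) hg (hΨs k)
    exact (area (S.openD _) (S.p_diff _) (S.integrableOn_jac e1.continuous e2 e3)).1
  have h2 : Integrable (fun w => ∑ k, ∑' u : Sfib (S.D (idx k)) (S.p (idx k)) w,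
      S.pull (idx k) (fun v => (Ψ k v : ℂ) * g v) u) := integrable_finset_sum _ fun k _ => h1 k
  refine (h2.integrableOn (s := Metric.closedBall w0 1)).congr ?_
  rw [EventuallyEq, ae_restrict_iff' Metric.isClosed_closedBall.measurableSet]
  filter_upwards [hF] with w hw hwK
  have h3 := S.sum_decomp hw.1 hw.2 idx (fun k v => (Ψ k v : ℂ) * g v) g ?_ ?_
  · unfold T
    rw [h3]
    refine Finset.sum_congr rfl fun k _ => tsum_congr fun u => ?_
    exact S.pull_apply u.2.1
  · intro k v hv hvn
    have : v ∉ tsupport (Ψ k) := fun h => hvn (hΨs k ⟨hv.1, h⟩)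
    simp only [image_eq_zero_of_notMem_tsupport this]
    simp
  · intro v hv
    have := hsum v (hKO v hv.1 (by rw [hv.2]; exact hwK))
    rw [← Finset.sum_mul]
    have h5 : (∑ k, (Ψ k v : ℂ)) = 1 := by exact_mod_cast this
    rw [h5, one_mul]

theorem weakHol (hPU : S.PUProp) (hF : S.FinfProp) (hE : S.ExtProp) {g : (Fin n → ℂ) → ℂ}
    (hg : Differentiable ℂ g) : WeakHol (S.T g) := by
  intro ψ hψ hψc j
  have hgC : ContDiff ℝ ∞ g := by
    have h1 := P268.analyticOnNhd_of_differentiableOn isOpen_univ hg.differentiableOn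
    have h2 : ContDiff ℂ ∞ g := by
      rw [← contDiffOn_univ]
      exact h1.contDiffOn uniqueDiffOn_univ
    exact h2.restrict_scalars ℝ
  have hψpr : ContDiff ℝ ∞ (fun v : Fin n → ℂ => (ψ (S.pr v) : ℂ)) :=
    (Complex.ofRealCLM.contDiff).comp (hψ.comp (S.pr.restrictScalars ℝ).contDiff)
  obtain ⟨m, Ψ, idx, hΨ, hΨc, hΨs, O, hO, hKO, hsum⟩ := hPU (tsupport ψ) hψc
  -- the functions in the charts
  set Φ : Fin m → (Fin n → ℂ) → ℂ := fun k v => (Ψ k v : ℂ) * (g v * (ψ (S.pr v) : ℂ)) with hΦ
  have hext : ∀ k, _ := fun k => S.ext_mul hE (i := idx k) (hΨ k) (hΨc k) (hgC.mul hψpr) (hΨs k)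
  set h : Fin m → W → ℂ := fun k => S.pull (idx k) (Φ k) with hh
  have h1 : ∀ k, ContDiff ℝ 1 (h k) := fun k => (hext k).1
  have h2 : ∀ k, HasCompactSupport (h k) := fun k => (hext k).2.1
  have h3 : ∀ k, tsupport (h k) ⊆ S.D (idx k) := fun k => (hext k).2.2
  -- the densities
  let q : Fin m → W → ℂ := fun k => qq (S.p (idx k)) j (h k)
  let φ : Fin m → W → ℂ := fun k u => q k u / ((‖Jac (S.p (idx k)) u‖ : ℂ) ^ 2)
  have hq : ∀ k u, (‖Jac (S.p (idx k)) u‖ ^ 2 : ℝ) • φ k u = q k u := by
    intro k u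
    by_cases hJ : Jac (S.p (idx k)) u = 0
    · have : q k u = 0 := qq_of_Jac_eq_zero hJ
      rw [hJ, this]; simp
    · have : (‖Jac (S.p (idx k)) u‖ : ℂ) ≠ 0 := by simpa using hJ
      simp only [φ, real_smul]
      push_cast
      field_simp
  have hqint : ∀ k, Integrable (q k) ∧ ∫ u, q k u = 0 := by
    intro k
    obtain ⟨a1, a2⟩ := rr_integral (S.openD _) (S.p_diff (idx k)) (h1 k) (h2 k) (h3 k) 1
    obtain ⟨b1, b2⟩ := rr_integral (S.openD _) (S.p_diff (idx k)) (h1 k) (h2 k) (h3 k) 0
    by_cases hj : j = 0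
    · have : q k = rr (S.p (idx k)) 1 (h k) := by
        funext u; simp only [q, qq, if_pos hj]
      rw [this]; exact ⟨a1, a2⟩
    · have : q k = fun u => - rr (S.p (idx k)) 0 (h k) u := by
        funext u; simp only [q, qq, if_neg hj]
      rw [this]
      exact ⟨b1.neg, by rw [integral_neg, b2, neg_zero]⟩
  have hq0 : ∀ k u, u ∉ S.D (idx k) → q k u = 0 := by
    intro k u hu
    refine qq_eq_zero ?_
    have : u ∉ tsupport (h k) := fun hm => hu (h3 k hm)
    filter_upwards [(isClosed_tsupport (h k)).isOpen_compl.mem_nhds this] with y hy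
    exact image_eq_zero_of_notMem_tsupport hy
  have harea : ∀ k, Integrable (fun w => ∑' u : Sfib (S.D (idx k)) (S.p (idx k)) w, φ k u) ∧
      ∫ w, (∑' u : Sfib (S.D (idx k)) (S.p (idx k)) w, φ k u) = 0 := by
    intro k
    have hfun : (fun u => (‖Jac (S.p (idx k)) u‖ ^ 2 : ℝ) • φ k u) = q k := funext (hq k)
    have hA := area (S.openD (idx k)) (S.p_diff (idx k)) (φ := φ k)
      (by rw [hfun]; exact (hqint k).1.integrableOn)
    refine ⟨hA.1, ?_⟩
    rw [hA.2, hfun, setIntegral_eq_integral_of_forall_compl_eq_zero (fun u hu => hq0 k u hu)]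
    exact (hqint k).2
  -- the pointwise identity
  have key : ∀ᵐ w, S.T g w * ((fderiv ℝ ψ w (bs j 1) : ℂ) + I * (fderiv ℝ ψ w (bs j I) : ℂ))
      = ∑ k, ∑' u : Sfib (S.D (idx k)) (S.p (idx k)) w, φ k u := by
    filter_upwards [hF] with w hw
    by_cases hwK : w ∈ tsupport ψ
    swap
    · -- outside the support both sides vanish
      have hψ0 : ψ =ᶠ[𝓝 w] fun _ => 0 := by
        filter_upwards [(isClosed_tsupport ψ).isOpen_compl.mem_nhds hwK] with y hy
        exact image_eq_zero_of_notMem_tsupport hy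
      have hd0 : fderiv ℝ ψ w = 0 := by rw [hψ0.fderiv_eq]; simp
      rw [hd0]
      simp only [zero_apply, ofReal_zero, mul_zero, add_zero]
      symm
      refine Finset.sum_eq_zero fun k _ => ?_
      rw [← tsum_zero (β := Sfib (S.D (idx k)) (S.p (idx k)) w)]
      refine tsum_congr fun u => ?_
      have hcont : ContinuousAt (S.p (idx k)) u :=
        ((S.p_diff (idx k)).differentiableAt ((S.openD _).mem_nhds u.2.1)).continuousAt
      have h0 : h k =ᶠ[𝓝 (u : W)] fun _ => 0 := by
        have h5 : ∀ᶠ x in 𝓝 (u : W), ψ (S.p (idx k) x) = 0 := by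
          have : Tendsto (S.p (idx k)) (𝓝 (u : W)) (𝓝 w) := by
            have := hcont.tendsto
            rwa [u.2.2.2] at this
          exact this.eventually hψ0
        filter_upwards [h5] with x hx
        simp only [hh, pull]
        split_ifs
        · have : ψ (S.pr (S.f (idx k) x)) = 0 := hx
          simp [hΦ, this]
        · rfl
      simp only [φ, q]
      rw [qq_eq_zero h0, zero_div]
    · -- sections
      have hsec : ∀ v : Fin n → ℂ, ∃ s : W → (Fin n → ℂ), v ∈ S.fib w → s w = v ∧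
          DifferentiableAt ℂ s w ∧ (∀ᶠ w' in 𝓝 w, s w' ∈ S.Z ∧ S.pr (s w') = w') := by
        intro v
        by_cases hv : v ∈ S.fib w
        · obtain ⟨s, hs⟩ := S.exists_section hw.2 hv
          exact ⟨s, fun _ => hs⟩
        · exact ⟨fun _ => 0, fun h => absurd h hv⟩
      choose s hs using hsec
      let X : Fin m → (Fin n → ℂ) → ℂ := fun k v => dbar j (fun w' => Φ k (s v w')) w
      have hdec := S.sum_decomp hw.1 hw.2 idx X
        (fun v => g v * ((fderiv ℝ ψ w (bs j 1) : ℂ) + I * (fderiv ℝ ψ w (bs j I) : ℂ))) ?_ ?_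
      · rw [T, ← tsum_mul_right, hdec]
        refine Finset.sum_congr rfl fun k _ => tsum_congr fun u => ?_
        -- the chain rule
        have huD := u.2.1
        have hJ := u.2.2.1
        have hpu := u.2.2.2
        obtain ⟨e, hue, heD, hep, hes⟩ :=
          exists_localInverse (S.openD (idx k)) (S.p_diff (idx k)) huD hJ
        have hvf : S.f (idx k) u ∈ S.fib w := ⟨S.mem _ _ huD, hpu⟩
        obtain ⟨hs1, hs2, hs3⟩ := hs _ hvf
        have h5 := S.section_unique hs2.continuousAt hs3 huD hs1.symm hue hep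
        have h6 := chain (S.openD (idx k)) (S.p_diff (idx k)) huD hJ hue hep hes
          ((h1 k).differentiable one_ne_zero u) j
        rw [hpu] at h6
        simp only [φ, q, X]
        rw [← h6]
        have ht : w ∈ e.target := by
          have := e.map_source hue
          rwa [hep, hpu] at this
        refine (dbar_congr ?_).symm
        filter_upwards [h5, e.open_target.mem_nhds ht] with w' hw' hw't
        have hD' := (heD (e.map_target hw't)).1
        simp only [hh]
        rw [S.pull_apply hD', hw']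
      · -- off the chart
        intro k v hv hvn
        obtain ⟨hs1, hs2, hs3⟩ := hs v hv
        have hvs : v ∉ tsupport (Ψ k) := fun hm => hvn (hΨs k ⟨hv.1, hm⟩)
        have : (fun w' => Φ k (s v w')) =ᶠ[𝓝 w] fun _ => 0 := by
          have h7 : Tendsto (s v) (𝓝 w) (𝓝 v) := by
            have := hs2.continuousAt.tendsto
            rwa [hs1] at this
          filter_upwards [h7.eventually ((isClosed_tsupport (Ψ k)).isOpen_compl.mem_nhds hvs)]
            with w' hw'
          have : Ψ k (s v w') = 0 := image_eq_zero_of_notMem_tsupport hw'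
          simp [hΦ, this]
        simp only [X]
        rw [dbar_congr this]
        simp [dbar]
      · -- the sum
        intro v hv
        obtain ⟨hs1, hs2, hs3⟩ := hs v hv
        have hvO : v ∈ O := hKO v hv.1 (by rw [hv.2]; exact hwK)
        have h7 : Tendsto (s v) (𝓝 w) (𝓝 v) := by
          have := hs2.continuousAt.tendsto
          rwa [hs1] at this
        have hdiffΦ : ∀ k, DifferentiableAt ℝ (fun w' => Φ k (s v w')) w := by
          intro k
          have hΦd : ContDiff ℝ ∞ (Φ k) :=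
            ((Complex.ofRealCLM.contDiff).comp (hΨ k)).mul (hgC.mul hψpr)
          exact (hΦd.differentiable (by simp) _).comp w (hs2.restrictScalars ℝ)
        have h8 : ∑ k, X k v = dbar j (fun w' => ∑ k, Φ k (s v w')) w := by
          simp only [X, dbar]
          rw [fderiv_fun_sum fun k _ => hdiffΦ k]
          simp only [ContinuousLinearMap.sum_apply]
          rw [Finset.mul_sum, ← Finset.sum_add_distrib]
        rw [h8]
        have h9 : (fun w' => ∑ k, Φ k (s v w')) =ᶠ[𝓝 w]
            fun w' => g (s v w') * (ψ w' : ℂ) := by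
          filter_upwards [h7.eventually (hO.mem_nhds hvO), hs3] with w' hw1 hw2
          have h10 := hsum _ hw1
          simp only [hΦ]
          rw [← Finset.sum_mul]
          have h11 : (∑ k, (Ψ k (s v w') : ℂ)) = 1 := by exact_mod_cast h10
          rw [h11, one_mul, hw2.2]
        rw [dbar_congr h9]
        have hgs : DifferentiableAt ℂ (fun w' => g (s v w')) w := (hg _).comp w hs2
        have hψd : DifferentiableAt ℝ (fun w' => (ψ w' : ℂ)) w :=
          (Complex.ofRealCLM.differentiableAt).comp w (hψ.differentiable (by simp) w)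
        rw [dbar_mul j (hgs.restrictScalars ℝ) hψd, dbar_holo j hgs, zero_mul, zero_add, hs1]
        congr 1
        unfold dbar
        have h12 : HasFDerivAt (fun w' => (ψ w' : ℂ)) (Complex.ofRealCLM.comp (fderiv ℝ ψ w)) w :=
          (Complex.ofRealCLM.hasFDerivAt).comp w (hψ.differentiable (by simp) w).hasFDerivAt
        rw [h12.fderiv]
        simp
  rw [integral_congr_ae key, integral_finset_sum _ fun k _ => (harea k).1]
  exact Finset.sum_eq_zero fun k _ => (harea k).2

theorem trProp (hPU : S.PUProp) (hF : S.FinfProp) (hE : S.ExtProp) : S.TrProp := by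
  intro g hg
  refine ⟨S.locInt hPU hF hE ?_, S.weakHol hPU hF hE hg⟩
  have h1 := P268.analyticOnNhd_of_differentiableOn isOpen_univ hg.differentiableOn
  have h2 : ContDiff ℂ ∞ g := by
    rw [← contDiffOn_univ]
    exact h1.contDiffOn uniqueDiffOn_univ
  exact h2.restrict_scalars ℝ

end Aff

end Vale.Agent.P300.H86
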