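import Vale.Agent.P300.H86.Final
import Vale.Agent.P300.H86.Tr2
import Vale.Agent.P300.H86.Ext
import Vale.Agent.P300.H307.Poly
import Vale.Agent.P300.H918.Vnj
import Vale.Agent.P300.H933.AffQ
import Vale.Agent.P300.H14.GenM

/-!
# P300 [CHOW]: the theorem
-/

namespace Vale.Agent.P300.H86

theorem polyProp {n : ℕ} (S : Aff n) : S.PolyProp :=
  H307.polyProp S (S.trProp (H307.puProp S) (H307.finfProp S) S.extProp)

theorem chow_of' (hAff : AffPart) (hG1 : GenM1) (hG2 : GenM2) : ChowProp :=
  chow_of polyProp H918.vprop H918.nprop H918.jprop hAff hG1 hG2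

/-- **[CHOW]**: the cone over a compact complex surface holomorphically embedded in projective
space is the zero set of the homogeneous polynomials vanishing on it, and the Jacobian criterion
holds at every point. -/
theorem chow : ChowProp := chow_of' H933A.affPart H14.genM1 H14.genM2

end Vale.Agent.P300.H86
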