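import Vale.Agent.P300.H86.Moll
import Vale.Agent.P268.Hol

/-!
# The area formula with multiplicity for holomorphic maps of open sets of `ℂ²`
-/

open Complex Filter Set MeasureTheory
open scoped Topology Real ContDiff ENNReal

namespace Vale.Agent.P300.H86

/-- The complex Jacobian determinant of `p`. -/
noncomputable def Jac (p : W → W) (u : W) : ℂ := LinearMap.det (fderiv ℂ p u : W →ₗ[ℂ] W)

theorem det_eq (L : W →ₗ[ℂ] W) :
    LinearMap.det L = L (bs 0 1) 0 * L (bs 1 1) 1 - L (bs 1 1) 0 * L (bs 0 1) 1 := by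
  rw [← LinearMap.det_toMatrix (Pi.basisFun ℂ (Fin 2)), Matrix.det_fin_two]
  simp [bs]

theorem Jac_eq (p : W → W) (u : W) : Jac p u =
    fderiv ℂ p u (bs 0 1) 0 * fderiv ℂ p u (bs 1 1) 1
      - fderiv ℂ p u (bs 1 1) 0 * fderiv ℂ p u (bs 0 1) 1 := det_eq _

theorem det_real {p : W → W} {u : W} (hp : DifferentiableAt ℂ p u) :
    (fderiv ℝ p u).det = ‖Jac p u‖ ^ 2 := by
  rw [hp.fderiv_restrictScalars ℝ]
  have h1 : (((fderiv ℂ p u).restrictScalars ℝ : W →L[ℝ] W) : W →ₗ[ℝ] W)
      = (fderiv ℂ p u : W →ₗ[ℂ] W).restrictScalars ℝ := rfl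
  rw [ContinuousLinearMap.det, h1, LinearMap.det_restrictScalars, Algebra.norm_complex_apply,
    Complex.normSq_eq_norm_sq]
  rfl

theorem continuousOn_fderiv_apply {p : W → W} {D : Set W} (hD : IsOpen D)
    (hp : DifferentiableOn ℂ p D) (v : W) : ContinuousOn (fun u => fderiv ℂ p u v) D :=
  (P268.differentiableOn_fderiv_apply hD hp v).continuousOn

theorem continuousOn_Jac {p : W → W} {D : Set W} (hD : IsOpen D)
    (hp : DifferentiableOn ℂ p D) : ContinuousOn (Jac p) D := by
  have h : ∀ v i, ContinuousOn (fun u => fderiv ℂ p u v i) D := fun v i =>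
    (continuous_apply i).comp_continuousOn (continuousOn_fderiv_apply hD hp v)
  have : Jac p = fun u => fderiv ℂ p u (bs 0 1) 0 * fderiv ℂ p u (bs 1 1) 1
      - fderiv ℂ p u (bs 1 1) 0 * fderiv ℂ p u (bs 0 1) 1 := funext fun u => Jac_eq p u
  rw [this]
  exact ((h _ _).mul (h _ _)).sub ((h _ _).mul (h _ _))

theorem isOpen_star {p : W → W} {D : Set W} (hD : IsOpen D)
    (hp : DifferentiableOn ℂ p D) : IsOpen {u | u ∈ D ∧ Jac p u ≠ 0} :=
  (continuousOn_Jac hD hp).isOpen_inter_preimage hD isOpen_ne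

/-- Local inverse at a noncritical point. -/
theorem exists_localInverse {p : W → W} {D : Set W} (hD : IsOpen D)
    (hp : DifferentiableOn ℂ p D) {u : W} (hu : u ∈ D) (hJ : Jac p u ≠ 0) :
    ∃ e : OpenPartialHomeomorph W W, u ∈ e.source ∧ e.source ⊆ {u | u ∈ D ∧ Jac p u ≠ 0} ∧
      (e : W → W) = p ∧ DifferentiableAt ℂ e.symm (p u) := by
  have hc : ContDiffAt ℂ 1 p u := by
    have := P268.contDiffOn_of_differentiableOn hD hp 1
    exact_mod_cast (this u hu).contDiffAt (hD.mem_nhds hu)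
  have hdet : (fderiv ℂ p u).det ≠ 0 := hJ
  have hd : HasFDerivAt p (((fderiv ℂ p u).toContinuousLinearEquivOfDetNeZero hdet :
      W ≃L[ℂ] W) : W →L[ℂ] W) u := by
    rw [ContinuousLinearMap.coe_toContinuousLinearEquivOfDetNeZero]
    exact (hc.differentiableAt one_ne_zero).hasFDerivAt
  let e := hc.toOpenPartialHomeomorph p hd one_ne_zero
  have he : u ∈ e.source := ContDiffAt.mem_toOpenPartialHomeomorph_source hc hd one_ne_zero
  have hinv := ContDiffAt.to_localInverse hc hd one_ne_zero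
  refine ⟨e.restrOpen _ (isOpen_star hD hp), ?_, ?_, rfl, ?_⟩
  · rw [OpenPartialHomeomorph.restrOpen_source]
    exact ⟨he, hu, hJ⟩
  · rw [OpenPartialHomeomorph.restrOpen_source]
    exact inter_subset_right
  · exact hinv.differentiableAt one_ne_zero

/-- The noncritical points over `w`. -/
def Sfib (D : Set W) (p : W → W) (w : W) : Set W := {u | u ∈ D ∧ Jac p u ≠ 0 ∧ p u = w}

/-- The noncritical set is a countable disjoint union of measurable sets on which `p` is
injective. -/
theorem exists_partition {p : W → W} {D : Set W} (hD : IsOpen D)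
    (hp : DifferentiableOn ℂ p D) : ∃ A : ℕ → Set W, (∀ k, MeasurableSet (A k)) ∧
      Pairwise (Function.onFun Disjoint A) ∧ (⋃ k, A k) = {u | u ∈ D ∧ Jac p u ≠ 0} ∧
      ∀ k, InjOn p (A k) := by
  classical
  set S : Set W := {u | u ∈ D ∧ Jac p u ≠ 0} with hS
  have hSo : IsOpen S := isOpen_star hD hp
  have h1 : ∀ u ∈ S, ∃ U : Set W, IsOpen U ∧ u ∈ U ∧ InjOn p U := by
    intro u hu
    obtain ⟨e, hue, -, hep, -⟩ := exists_localInverse hD hp hu.1 hu.2
    exact ⟨e.source, e.open_source, hue, by rw [← hep]; exact e.injOn⟩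
  choose! U hUo hUm hUi using h1
  obtain ⟨t, htS, htc, hcov⟩ := TopologicalSpace.countable_cover_nhdsWithin (f := U) (s := S)
    (fun u hu => mem_nhdsWithin_of_mem_nhds ((hUo u hu).mem_nhds (hUm u hu)))
  obtain ⟨f, hf⟩ := Set.countable_iff_exists_subset_range.1 htc
  let B : ℕ → Set W := fun k => if f k ∈ t then U (f k) ∩ S else ∅
  have hBo : ∀ k, IsOpen (B k) := by
    intro k
    by_cases h : f k ∈ t
    · simp only [B, if_pos h]; exact (hUo _ (htS h)).inter hSo
    · simp only [B, if_neg h]; exact isOpen_empty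
  have hBi : ∀ k, InjOn p (B k) := by
    intro k
    by_cases h : f k ∈ t
    · simp only [B, if_pos h]; exact (hUi _ (htS h)).mono inter_subset_left
    · simp only [B, if_neg h]; exact injOn_empty _
  have hBU : (⋃ k, B k) = S := by
    apply Subset.antisymm
    · apply iUnion_subset
      intro k
      by_cases h : f k ∈ t
      · simp only [B, if_pos h]; exact inter_subset_right
      · simp only [B, if_neg h]; exact empty_subset _
    · intro u hu
      obtain ⟨x, hx, hux⟩ := mem_iUnion₂.1 (hcov hu)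
      obtain ⟨k, rfl⟩ := hf hx
      refine mem_iUnion.2 ⟨k, ?_⟩
      simp only [B, if_pos hx]
      exact ⟨hux, hu⟩
  refine ⟨disjointed B, fun k => MeasurableSet.disjointed (fun k => (hBo k).measurableSet) k,
    disjoint_disjointed B, by rw [iUnion_disjointed, hBU], fun k =>
      (hBi k).mono (disjointed_subset B k)⟩

/-- **Area formula with multiplicity.** -/
theorem area {p : W → W} {D : Set W} (hD : IsOpen D) (hp : DifferentiableOn ℂ p D)
    {φ : W → ℂ} (hφ : IntegrableOn (fun u => (‖Jac p u‖ ^ 2 : ℝ) • φ u) D) :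
    Integrable (fun w => ∑' u : Sfib D p w, φ u) ∧
      ∫ w, (∑' u : Sfib D p w, φ u) = ∫ u in D, (‖Jac p u‖ ^ 2 : ℝ) • φ u := by
  classical
  obtain ⟨A, hAm, hAd, hAU, hAi⟩ := exists_partition hD hp
  have hAD : ∀ k, A k ⊆ D := fun k u hu => by
    have : u ∈ {u | u ∈ D ∧ Jac p u ≠ 0} := by rw [← hAU]; exact mem_iUnion.2 ⟨k, hu⟩
    exact this.1
  -- the pieces
  let T : ℕ → W → ℂ := fun k w => if h : ∃ u ∈ A k, p u = w then φ h.choose else 0
  have hTp : ∀ k, ∀ u ∈ A k, T k (p u) = φ u := by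
    intro k u hu
    have h : ∃ u' ∈ A k, p u' = p u := ⟨u, hu, rfl⟩
    simp only [T, dif_pos h]
    rw [hAi k h.choose_spec.1 hu h.choose_spec.2]
  have hT0 : ∀ k w, w ∉ p '' A k → T k w = 0 := by
    intro k w hw
    have h : ¬ ∃ u ∈ A k, p u = w := fun ⟨u, hu, h⟩ => hw ⟨u, hu, h⟩
    simp only [T, dif_neg h]
  -- the sum of the pieces
  have hsum : ∀ w, ∑' u : Sfib D p w, φ u = ∑' k, T k w := by
    intro w
    have hex : ∀ u : Sfib D p w, ∃ k, (u : W) ∈ A k := by
      intro u
      have : (u : W) ∈ ⋃ k, A k := by rw [hAU]; exact ⟨u.2.1, u.2.2.1⟩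
      exact mem_iUnion.1 this
    choose g hg using hex
    have hinj : Function.Injective g := by
      intro u u' h
      apply Subtype.ext
      refine hAi (g u) (hg u) (h ▸ hg u') ?_
      rw [u.2.2.2, u'.2.2.2]
    have h1 : ∀ u : Sfib D p w, φ u = (fun k => T k w) (g u) := by
      intro u
      have := hTp (g u) u (hg u)
      rw [u.2.2.2] at this
      exact this.symm
    rw [tsum_congr h1]
    refine hinj.tsum_eq (f := fun k => T k w) ?_
    intro k hk
    have hk' : w ∈ p '' A k := by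
      by_contra h
      exact hk (hT0 k w h)
    obtain ⟨u, hu, rfl⟩ := hk'
    have hmem : u ∈ Sfib D p (p u) := by
      have : u ∈ {u | u ∈ D ∧ Jac p u ≠ 0} := by rw [← hAU]; exact mem_iUnion.2 ⟨k, hu⟩
      exact ⟨this.1, this.2, rfl⟩
    refine ⟨⟨u, hmem⟩, ?_⟩
    by_contra hne
    exact (Set.disjoint_left.1 (hAd hne)) (hg ⟨u, hmem⟩) hu
  -- each piece
  have hder : ∀ k, ∀ x ∈ A k, HasFDerivWithinAt p (fderiv ℝ p x) (A k) x := fun k x hx =>
    ((hp.differentiableAt (hD.mem_nhds (hAD k hx))).restrictScalars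
      ℝ).hasFDerivAt.hasFDerivWithinAt
  have habs : ∀ k, ∀ x ∈ A k, |(fderiv ℝ p x).det| = ‖Jac p x‖ ^ 2 := fun k x hx => by
    rw [det_real (hp.differentiableAt (hD.mem_nhds (hAD k hx))), abs_of_nonneg (by positivity)]
  have hint1 : ∀ k, IntegrableOn (T k) (p '' A k) := by
    intro k
    rw [integrableOn_image_iff_integrableOn_abs_det_fderiv_smul volume (hAm k) (hder k) (hAi k)]
    refine (hφ.mono_set (hAD k)).congr_fun (fun x hx => ?_) (hAm k)
    simp only [habs k x hx, hTp k x hx]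
  have himm : ∀ k, MeasurableSet (p '' A k) := fun k =>
    measurable_image_of_fderivWithin (hAm k) (hder k) (hAi k)
  have hint : ∀ k, Integrable (T k) := by
    intro k
    rw [← integrableOn_univ, ← union_compl_self (p '' A k)]
    refine (hint1 k).union ?_
    refine (integrableOn_zero : IntegrableOn (fun _ : W => (0 : ℂ)) _ volume).congr_fun (fun x hx => (hT0 k x hx).symm)
      (himm k).compl
  have hval : ∀ k, ∫ w, T k w = ∫ u in A k, (‖Jac p u‖ ^ 2 : ℝ) • φ u := by
    intro k
    rw [← setIntegral_eq_integral_of_forall_compl_eq_zero (s := p '' A k)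
      (fun w hw => hT0 k w hw),
      integral_image_eq_integral_abs_det_fderiv_smul volume (hAm k) (hder k) (hAi k)]
    exact setIntegral_congr_fun (hAm k) fun x hx => by simp only [habs k x hx, hTp k x hx]
  have hnorm : ∀ k, ∫ w, ‖T k w‖ = ∫ u in A k, ‖(‖Jac p u‖ ^ 2 : ℝ) • φ u‖ := by
    intro k
    rw [← setIntegral_eq_integral_of_forall_compl_eq_zero (s := p '' A k)
      (fun w hw => by rw [hT0 k w hw, norm_zero]),
      integral_image_eq_integral_abs_det_fderiv_smul volume (hAm k) (hder k) (hAi k)]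
    refine setIntegral_congr_fun (hAm k) fun x hx => ?_
    simp only [habs k x hx, hTp k x hx, norm_smul, smul_eq_mul]
    rw [Real.norm_of_nonneg (by positivity : (0 : ℝ) ≤ ‖Jac p x‖ ^ 2)]
  have hUD : (⋃ k, A k) ⊆ D := iUnion_subset hAD
  have hs1 : Summable fun k => ∫ w, ‖T k w‖ := by
    have := (hasSum_integral_iUnion hAm hAd ((hφ.mono_set hUD).norm)).summable
    refine this.congr fun k => (hnorm k).symm
  have hs2 := hasSum_integral_iUnion hAm hAd (hφ.mono_set hUD)
  have h3 := hasSum_integral_of_summable_integral_norm hint hs1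
  have hInt : Integrable (fun w => ∑' k, T k w) := by
    have hL : ∑' k, ∫⁻ w, ‖T k w‖ₑ ≠ ⊤ := by
      have : ∀ k, ∫⁻ w, ‖T k w‖ₑ = ENNReal.ofReal (∫ w, ‖T k w‖) := fun k => by
        rw [ofReal_integral_norm_eq_lintegral_enorm (hint k)]
      simp_rw [this]
      rw [← ENNReal.ofReal_tsum_of_nonneg (fun k => integral_nonneg fun _ => norm_nonneg _) hs1]
      exact ENNReal.ofReal_ne_top
    have hL2 : ∫⁻ w, ∑' k, ‖T k w‖ₑ ≠ ⊤ := by
      rwa [lintegral_tsum fun k => (hint k).aestronglyMeasurable.enorm]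
    have hae : ∀ᵐ w, Summable fun k => ‖T k w‖ := by
      have hm : AEMeasurable (fun w => ∑' k, ‖T k w‖ₑ) := by
        exact AEMeasurable.tsum fun k => (hint k).aestronglyMeasurable.enorm
      filter_upwards [ae_lt_top' hm hL2] with w hw
      have h5 : ∑' k, ‖T k w‖ₑ ≠ ⊤ := hw.ne
      exact NNReal.summable_coe.2 (ENNReal.tsum_coe_ne_top_iff_summable.1 h5)
    refine ⟨?_, ?_⟩
    · refine aestronglyMeasurable_of_tendsto_ae (f := fun (n : ℕ) w => ∑ k ∈ Finset.range n, T k w)
        atTop (fun n => ?_) ?_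
      · exact Finset.aestronglyMeasurable_fun_sum _ fun k _ => (hint k).aestronglyMeasurable
      · filter_upwards [hae] with w hw
        exact hw.of_norm.hasSum.tendsto_sum_nat
    · refine lt_of_le_of_lt ?_ (lt_top_iff_ne_top.2 hL2)
      refine lintegral_mono fun w => ?_
      exact enorm_tsum_le_tsum_enorm
  have heq : (fun w => ∑' u : Sfib D p w, φ u) = fun w => ∑' k, T k w := funext hsum
  refine ⟨by rw [heq]; exact hInt, ?_⟩
  rw [heq]
  have h4 : ∫ w, ∑' k, T k w = ∫ u in ⋃ k, A k, (‖Jac p u‖ ^ 2 : ℝ) • φ u := by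
    rw [← h3.tsum_eq, ← hs2.tsum_eq]
    exact tsum_congr hval
  rw [h4, hAU]
  refine setIntegral_eq_of_subset_of_forall_sdiff_eq_zero hD.measurableSet
    (fun u hu => hu.1) (fun u hu => ?_) |>.symm
  have : Jac p u = 0 := by
    by_contra h
    exact hu.2 ⟨hu.1, h⟩
  simp [this]

/-- Sard: the critical values form a null set. -/
theorem sard {p : W → W} {D : Set W} (hD : IsOpen D) (hp : DifferentiableOn ℂ p D) :
    volume (p '' {u | u ∈ D ∧ Jac p u = 0}) = 0 := by
  refine addHaar_image_eq_zero_of_det_fderivWithin_eq_zero volume (f' := fun x => fderiv ℝ p x) ?_ ?_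
  · intro x hx
    exact ((hp.differentiableAt (hD.mem_nhds hx.1)).restrictScalars
      ℝ).hasFDerivAt.hasFDerivWithinAt
  · intro x hx
    rw [det_real (hp.differentiableAt (hD.mem_nhds hx.1)), hx.2]
    simp

end Vale.Agent.P300.H86
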