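import Vale.Agent.P300.H86.Area

/-!
# Integration by parts in a chart
-/

open Complex Filter Set MeasureTheory
open scoped Topology Real ContDiff ENNReal ComplexConjugate

namespace Vale.Agent.P300.H86

/-- `∂_x + i ∂_y` in the variable `a`. -/
noncomputable def dbar (a : Fin 2) (h : W → ℂ) (u : W) : ℂ :=
  fderiv ℝ h u (bs a 1) + I * fderiv ℝ h u (bs a I)

theorem dbar_congr {a : Fin 2} {f g : W → ℂ} {u : W} (h : f =ᶠ[𝓝 u] g) :
    dbar a f u = dbar a g u := by
  unfold dbar; rw [h.fderiv_eq]

theorem dbar_mul (a : Fin 2) {f g : W → ℂ} {u : W} (hf : DifferentiableAt ℝ f u)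
    (hg : DifferentiableAt ℝ g u) :
    dbar a (fun u => f u * g u) u = dbar a f u * g u + f u * dbar a g u := by
  unfold dbar
  rw [fderiv_fun_mul hf hg]
  simp only [add_apply, smul_apply, smul_eq_mul]
  ring

theorem dbar_holo (a : Fin 2) {f : W → ℂ} {u : W} (hf : DifferentiableAt ℂ f u) :
    dbar a f u = 0 := by
  unfold dbar
  rw [hf.fderiv_restrictScalars ℝ]
  have : bs a I = I • bs a 1 := by rw [← bs_smul, mul_one]
  rw [this]
  simp only [ContinuousLinearMap.coe_restrictScalars', map_smul, smul_eq_mul]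
  linear_combination (fderiv ℂ f u (bs a 1)) * I_sq

theorem differentiableAt_conj {f : W → ℂ} {u : W} (hf : DifferentiableAt ℂ f u) :
    DifferentiableAt ℝ (fun u => conj (f u)) u :=
  (Complex.conjCLE.differentiable.differentiableAt).comp u (hf.restrictScalars ℝ)

theorem dbar_conj_holo (a : Fin 2) {f : W → ℂ} {u : W} (hf : DifferentiableAt ℂ f u) :
    dbar a (fun u => conj (f u)) u = 2 * conj (fderiv ℂ f u (bs a 1)) := by
  unfold dbar
  have h1 : HasFDerivAt (fun u => conj (f u))
      ((Complex.conjCLE : ℂ →L[ℝ] ℂ).comp ((fderiv ℂ f u).restrictScalars ℝ)) u :=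
    (Complex.conjCLE.hasFDerivAt).comp u (hf.hasFDerivAt.restrictScalars ℝ)
  have : bs a I = I • bs a 1 := by rw [← bs_smul, mul_one]
  rw [h1.fderiv, this]
  simp only [ContinuousLinearMap.coe_comp, Function.comp_apply,
    ContinuousLinearMap.coe_restrictScalars', ContinuousLinearEquiv.coe_coe, conjCLE_apply,
    map_smul, smul_eq_mul, map_mul, conj_I]
  linear_combination (-conj (fderiv ℂ f u (bs a 1))) * I_sq

theorem mixed {P : W → ℂ} {D : Set W} (hD : IsOpen D) (hP : DifferentiableOn ℂ P D) {u : W}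
    (hu : u ∈ D) (v w : W) :
    fderiv ℂ (fun u => fderiv ℂ P u v) u w = fderiv ℂ (fun u => fderiv ℂ P u w) u v := by
  have hc : ContDiffAt ℂ 2 P u := by
    have := P268.contDiffOn_of_differentiableOn hD hP 2
    exact_mod_cast (this u hu).contDiffAt (hD.mem_nhds hu)
  have hd : DifferentiableAt ℂ (fderiv ℂ P) u :=
    (hc.fderiv_right (m := 1) (by norm_num)).differentiableAt one_ne_zero
  have h1 : ∀ v : W, HasFDerivAt (fun u => fderiv ℂ P u v)
      ((ContinuousLinearMap.apply ℂ ℂ v).comp (fderiv ℂ (fderiv ℂ P) u)) u := fun v =>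
    (ContinuousLinearMap.apply ℂ ℂ v).hasFDerivAt.comp u hd.hasFDerivAt
  rw [(h1 v).fderiv, (h1 w).fderiv]
  have := (hc.isSymmSndFDerivAt (by simp)) w v
  simpa using this

/-- the integral of a derivative of a compactly supported function vanishes. -/
theorem integral_fderiv_zero {A : W → ℂ} (hA : ContDiff ℝ 1 A) (hc : HasCompactSupport A)
    (v : W) : Integrable (fun u => fderiv ℝ A u v) ∧ ∫ u, fderiv ℝ A u v = 0 := by
  have hcont : Continuous (fun u => fderiv ℝ A u v) :=
    (hA.continuous_fderiv one_ne_zero).clm_apply continuous_const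
  have hcs : HasCompactSupport (fun u => fderiv ℝ A u v) :=
    (hc.fderiv (𝕜 := ℝ)).comp_left (g := fun L : W →L[ℝ] ℂ => L v) (by simp)
  have hint : Integrable (fun u => fderiv ℝ A u v) := hcont.integrable_of_hasCompactSupport hcs
  refine ⟨hint, ?_⟩
  have hA0 : Integrable A := hA.continuous.integrable_of_hasCompactSupport hc
  have h := integral_bilinear_hasFDerivAt_right_eq_neg_left_of_integrable (μ := (volume : Measure W))
    (f := fun _ : W => (1 : ℝ)) (f' := fun _ => 0) (g := A) (g' := fderiv ℝ A) (v := v)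
    (B := (ContinuousLinearMap.lsmul ℝ ℝ : ℝ →L[ℝ] ℂ →L[ℝ] ℂ)) (by simp) (by simpa using hint)
    (by simpa using hA0) (fun x _ => hasFDerivAt_const _ _)
    (fun x _ => (hA.differentiable one_ne_zero x).hasFDerivAt)
  simpa using h

theorem integral_dbar_zero {A : W → ℂ} (hA : ContDiff ℝ 1 A) (hc : HasCompactSupport A)
    (a : Fin 2) : Integrable (fun u => dbar a A u) ∧ ∫ u, dbar a A u = 0 := by
  obtain ⟨h1, h2⟩ := integral_fderiv_zero hA hc (bs a 1)
  obtain ⟨h3, h4⟩ := integral_fderiv_zero hA hc (bs a I)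
  refine ⟨h1.add (h3.const_mul I), ?_⟩
  unfold dbar
  rw [integral_add h1 (h3.const_mul I), integral_const_mul, h2, h4]
  simp

/-- Extension by zero of products. -/
theorem contDiff_mul_test {V : Set W} (hV : IsOpen V) {f κ : W → ℂ}
    (hf : ContDiffOn ℝ 1 f V) (hκ : ContDiff ℝ 1 κ) (hκV : tsupport κ ⊆ V) :
    ContDiff ℝ 1 (fun z => f z * κ z) := by
  rw [contDiff_iff_contDiffAt]
  intro z
  by_cases hz : z ∈ V
  · exact ((hf z hz).contDiffAt (hV.mem_nhds hz)).mul hκ.contDiffAt
  · have h1 : z ∉ tsupport κ := fun h => hz (hκV h)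
    have h2 : (fun z => f z * κ z) =ᶠ[𝓝 z] fun _ => 0 := by
      filter_upwards [(isClosed_tsupport κ).isOpen_compl.mem_nhds h1] with y hy
      rw [image_eq_zero_of_notMem_tsupport hy, mul_zero]
    exact contDiffAt_const.congr_of_eventuallyEq h2

variable {p : W → W} {D : Set W} {u : W}

/-- partial derivatives of the components -/
noncomputable def dp (p : W → W) (b a : Fin 2) (u : W) : ℂ := fderiv ℂ p u (bs a 1) b

theorem dp_eq (hp : DifferentiableAt ℂ p u) (b a : Fin 2) :
    dp p b a u = fderiv ℂ (fun u => p u b) u (bs a 1) := by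
  have h1 : HasFDerivAt (fun u => p u b)
      ((ContinuousLinearMap.proj (R := ℂ) (φ := fun _ : Fin 2 => ℂ) b).comp (fderiv ℂ p u)) u :=
    (ContinuousLinearMap.proj (R := ℂ) (φ := fun _ : Fin 2 => ℂ) b).hasFDerivAt.comp u
      hp.hasFDerivAt
  rw [h1.fderiv]
  rfl

theorem dp_diff (hD : IsOpen D) (hp : DifferentiableOn ℂ p D) (b a : Fin 2) :
    DifferentiableOn ℂ (dp p b a) D :=
  (ContinuousLinearMap.proj (R := ℂ) (φ := fun _ : Fin 2 => ℂ) b).differentiable.comp_differentiableOn
    (P268.differentiableOn_fderiv_apply hD hp (bs a 1))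

theorem Jac_dp (u : W) : Jac p u = dp p 0 0 u * dp p 1 1 u - dp p 0 1 u * dp p 1 0 u := Jac_eq p u

theorem Jac_diff (hD : IsOpen D) (hp : DifferentiableOn ℂ p D) : DifferentiableOn ℂ (Jac p) D := by
  have : Jac p = fun u => dp p 0 0 u * dp p 1 1 u - dp p 0 1 u * dp p 1 0 u := funext Jac_dp
  rw [this]
  exact ((dp_diff hD hp 0 0).mul (dp_diff hD hp 1 1)).sub
    ((dp_diff hD hp 0 1).mul (dp_diff hD hp 1 0))

/-- The density of the form `∂̄_{w} h` in the chart. -/
noncomputable def rr (p : W → W) (b : Fin 2) (h : W → ℂ) (u : W) : ℂ :=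
  Jac p u * (conj (dp p b 1 u) * dbar 0 h u - conj (dp p b 0 u) * dbar 1 h u)

theorem contDiffOn_real {f : W → ℂ} (hD : IsOpen D) (hf : DifferentiableOn ℂ f D) :
    ContDiffOn ℝ 1 f D := by
  have := P268.contDiffOn_of_differentiableOn hD hf 1
  exact_mod_cast this.restrict_scalars ℝ

theorem tsupport_mul {f κ : W → ℂ} : tsupport (fun z => f z * κ z) ⊆ tsupport κ :=
  closure_mono (Function.support_mul_subset_right f κ)

theorem rr_integral (hD : IsOpen D) (hp : DifferentiableOn ℂ p D) {h : W → ℂ}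
    (hh : ContDiff ℝ 1 h) (hc : HasCompactSupport h) (hs : tsupport h ⊆ D) (b : Fin 2) :
    Integrable (rr p b h) ∧ ∫ u, rr p b h u = 0 := by
  have hC : ∀ a, ContDiffOn ℝ 1 (fun u => Jac p u * conj (dp p b a u)) D := fun a =>
    (contDiffOn_real hD (Jac_diff hD hp)).mul
      ((Complex.conjCLE.contDiff).comp_contDiffOn (contDiffOn_real hD (dp_diff hD hp b a)))
  have hA : ∀ a, ContDiff ℝ 1 (fun u => Jac p u * conj (dp p b a u) * h u) := fun a =>
    contDiff_mul_test hD (hC a) hh hs
  have hcA : ∀ a, HasCompactSupport (fun u => Jac p u * conj (dp p b a u) * h u) := fun a =>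
    hc.mul_left
  obtain ⟨i0, e0⟩ := integral_dbar_zero (hA 1) (hcA 1) 0
  obtain ⟨i1, e1⟩ := integral_dbar_zero (hA 0) (hcA 0) 1
  have key : ∀ u, rr p b h u = dbar 0 (fun u => Jac p u * conj (dp p b 1 u) * h u) u
      - dbar 1 (fun u => Jac p u * conj (dp p b 0 u) * h u) u := by
    intro u
    by_cases hu : u ∈ D
    · have hJ : DifferentiableAt ℂ (Jac p) u := (Jac_diff hD hp).differentiableAt (hD.mem_nhds hu)
      have hd : ∀ a, DifferentiableAt ℂ (dp p b a) u := fun a =>
        (dp_diff hD hp b a).differentiableAt (hD.mem_nhds hu)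
      have h1 : ∀ a c, dbar c (fun u => Jac p u * conj (dp p b a u)) u
          = Jac p u * (2 * conj (fderiv ℂ (dp p b a) u (bs c 1))) := by
        intro a c
        rw [dbar_mul c (hJ.restrictScalars ℝ) (differentiableAt_conj (hd a)), dbar_holo c hJ,
          dbar_conj_holo c (hd a), zero_mul, zero_add]
      have h2 : ∀ a c, dbar c (fun u => Jac p u * conj (dp p b a u) * h u) u
          = Jac p u * (2 * conj (fderiv ℂ (dp p b a) u (bs c 1))) * h u
            + Jac p u * conj (dp p b a u) * dbar c h u := by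
        intro a c
        rw [dbar_mul c (f := fun u => Jac p u * conj (dp p b a u)) (g := h)
          ((hJ.restrictScalars ℝ).mul (differentiableAt_conj (hd a)))
          (hh.differentiable one_ne_zero u), h1]
      have h3 : ∀ a, (fun u => dp p b a u) =ᶠ[𝓝 u]
          fun u => fderiv ℂ (fun u => p u b) u (bs a 1) := by
        intro a
        filter_upwards [hD.mem_nhds hu] with x hx
        exact dp_eq (hp.differentiableAt (hD.mem_nhds hx)) b a
      have hPb : DifferentiableOn ℂ (fun u => p u b) D :=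
        (ContinuousLinearMap.proj (R := ℂ) (φ := fun _ : Fin 2 => ℂ)
          b).differentiable.comp_differentiableOn hp
      have h4 : fderiv ℂ (dp p b 1) u (bs 0 1) = fderiv ℂ (dp p b 0) u (bs 1 1) := by
        have e1 : fderiv ℂ (dp p b 1) u = _ := (h3 1).fderiv_eq
        have e0 : fderiv ℂ (dp p b 0) u = _ := (h3 0).fderiv_eq
        rw [e1, e0]
        exact mixed hD hPb hu _ _
      rw [h2, h2, h4]
      unfold rr
      ring
    · have h1 : u ∉ tsupport h := fun h => hu (hs h)
      have h2 : h =ᶠ[𝓝 u] fun _ => 0 := by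
        filter_upwards [(isClosed_tsupport h).isOpen_compl.mem_nhds h1] with y hy
        exact image_eq_zero_of_notMem_tsupport hy
      have h3 : ∀ a, (fun u => Jac p u * conj (dp p b a u) * h u) =ᶠ[𝓝 u] fun _ => 0 := by
        intro a
        filter_upwards [h2] with y hy
        rw [hy, mul_zero]
      have h4 : ∀ c, dbar c (fun _ => (0 : ℂ)) u = 0 := by
        intro c
        simp [dbar]
      rw [dbar_congr (h3 1), dbar_congr (h3 0), h4, h4]
      unfold rr
      rw [dbar_congr h2, dbar_congr h2, h4, h4]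
      simp
  have hfun : rr p b h = fun u => dbar 0 (fun u => Jac p u * conj (dp p b 1 u) * h u) u
      - dbar 1 (fun u => Jac p u * conj (dp p b 0 u) * h u) u := funext key
  rw [hfun]
  refine ⟨i0.sub i1, ?_⟩
  rw [integral_sub i0 i1, e0, e1, sub_zero]

end Vale.Agent.P300.H86
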