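import Vale.Agent.P300.H86.Proj

/-!
# P300 [CHOW]: final assembly
-/

open Complex Filter Set MeasureTheory
open scoped Topology ContDiff ENNReal ComplexConjugate

namespace Vale.Agent.P300.H86

open MvPolynomial in
/-- derivative of a polynomial along a curve -/
theorem hasDerivAt_eval {σ : Type*} [Fintype σ] (G : MvPolynomial σ ℂ) (y : ℂ → σ → ℂ)
    (y' : σ → ℂ) (t : ℂ) (h : ∀ r, HasDerivAt (fun t => y t r) (y' r) t) :
    HasDerivAt (fun t => eval (y t) G) (∑ r, y' r * eval (y t) (pderiv r G)) t := by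
  classical
  induction G using MvPolynomial.induction_on with
  | C a => simpa using hasDerivAt_const t a
  | add p q hp hq =>
    have := hp.add hq
    refine (this.congr_deriv ?_).congr_of_eventuallyEq (Eventually.of_forall fun t => by simp)
    rw [← Finset.sum_add_distrib]
    exact Finset.sum_congr rfl fun r _ => by simp [mul_add]
  | mul_X p i hp =>
    have := hp.mul (h i)
    refine (this.congr_deriv ?_).congr_of_eventuallyEq (Eventually.of_forall fun t => by simp)
    have h1 : ∀ r, y' r * eval (y t) (pderiv r (p * X i)) = y' r * eval (y t) (pderiv r p) * y t i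
        + (if r = i then y' r * eval (y t) p else 0) := by
      intro r
      rw [pderiv_mul, pderiv_X]
      by_cases hr : r = i
      · subst hr; simp; ring
      · rw [if_neg hr, Pi.single_eq_of_ne' hr]
        simp; ring
    simp_rw [h1]
    rw [Finset.sum_add_distrib, ← Finset.sum_mul]
    simp [mul_comm]

variable {n : ℕ} {C : Set (Fin n → ℂ)}

/-- the composition of `G` with the four linear forms -/
noncomputable def comp4 (M : Fin 4 → Fin n → ℂ) (G : MvPolynomial (Fin 4) ℂ) :
    MvPolynomial (Fin n) ℂ :=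
  MvPolynomial.aeval (fun r => ∑ b, MvPolynomial.C (M r b) * MvPolynomial.X b) G

theorem eval_comp4 (M : Fin 4 → Fin n → ℂ) (G : MvPolynomial (Fin 4) ℂ) (v : Fin n → ℂ) :
    MvPolynomial.eval v (comp4 M G) = MvPolynomial.eval (fun r => lf M r v) G := by
  unfold comp4
  induction G using MvPolynomial.induction_on with
  | C a => simp
  | add p q hp hq => rw [map_add, map_add, map_add, hp, hq]
  | mul_X p i hp =>
    rw [map_mul, map_mul, map_mul, hp, MvPolynomial.aeval_X, MvPolynomial.eval_X]
    congr 1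
    simp [lf_apply]

theorem comp4_hom (M : Fin 4 → Fin n → ℂ) {G : MvPolynomial (Fin 4) ℂ} {N : ℕ}
    (hG : G.IsHomogeneous N) : (comp4 M G).IsHomogeneous N := by
  have h := hG.aeval (fun r => ∑ b, MvPolynomial.C (M r b) * MvPolynomial.X b) (n := 1) ?_
  · rwa [one_mul] at h
  · intro r
    refine MvPolynomial.IsHomogeneous.sum _ _ _ fun b _ => ?_
    exact (MvPolynomial.isHomogeneous_X ℂ b).C_mul _

theorem eval_scale {G : MvPolynomial (Fin 4) ℂ} {N : ℕ} (hG : G.IsHomogeneous N)
    {a : Fin 4 → ℂ} (ha : a 0 ≠ 0) :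
    MvPolynomial.eval a G = (a 0) ^ N * MvPolynomial.eval
      ![1, (a 0)⁻¹ * a 1, (a 0)⁻¹ * a 2, (a 0)⁻¹ * a 3] G := by
  rw [← hom_eval hG]
  congr 2
  ext r
  fin_cases r <;> simp [ha]

theorem vanish_mem (A : ProjAtlas C) {M : Fin 4 → Fin n → ℂ} (hM : Good A M) {S : Aff n}
    (hZ : S.Z = {v | v ∈ C ∧ lf M 0 v = 1}) (hpr : ∀ v, S.pr v = ![lf M 1 v, lf M 2 v])
    (hV : S.VProp) {N : ℕ} {G : MvPolynomial (Fin 4) ℂ} (hG : G.IsHomogeneous N)
    (hc : S.IsChar (lf M 3) N G) : comp4 M G ∈ vanish C := by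
  refine ⟨⟨N, comp4_hom M hG⟩, ?_⟩
  -- the points with `l₀ ≠ 0`
  have h1 : ∀ v ∈ C, lf M 0 v ≠ 0 → MvPolynomial.eval v (comp4 M G) = 0 := by
    intro v hv h0
    rw [eval_comp4, eval_scale hG h0]
    have hv' : (lf M 0 v)⁻¹ • v ∈ S.Z := by
      rw [hZ]
      refine ⟨A.smul v hv _ (inv_ne_zero h0), ?_⟩
      rw [map_smul, smul_eq_mul, inv_mul_cancel₀ h0]
    have h2 := hV (lf M 3) N G hc _ hv'
    rw [hpr] at h2
    simp only [map_smul, smul_eq_mul, Matrix.cons_val_zero, Matrix.cons_val_one] at h2
    simp only [h2, mul_zero]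
  intro v hv
  by_contra hne
  obtain ⟨i, u, hu, s, hs, rfl⟩ := A.cover v hv
  -- a neighbourhood of `u` on which the value is nonzero
  have hcont : ContinuousOn (fun x => MvPolynomial.eval (s • A.F i x) (comp4 M G)) (A.D i) := by
    have h3 : ContinuousOn (fun x => s • A.F i x) (A.D i) :=
      (A.diff i).continuousOn.const_smul s
    exact (MvPolynomial.continuous_eval _).comp_continuousOn h3
  have hopen := hcont.isOpen_inter_preimage (A.openD i) (isOpen_ne (x := (0 : ℂ)))
  obtain ⟨u', hu', h0, -⟩ := hM.dense i _ hopen inter_subset_left ⟨u, hu, hne⟩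
  refine hu'.2 (h1 _ (A.smul _ (A.mem i u' hu'.1) s hs) ?_)
  rw [map_smul, smul_eq_mul]
  exact mul_ne_zero hs h0

theorem chow_of (hPoly : ∀ {n} (S : Aff n), S.PolyProp) (hV : ∀ {n} (S : Aff n), S.VProp)
    (hN : ∀ {n} (S : Aff n), S.NProp) (hJ : ∀ {n} (S : Aff n), S.JProp)
    (hAff : AffPart) (hG1 : GenM1) (hG2 : GenM2) : ChowProp := by
  intro n C A
  refine ⟨?_, ?_⟩
  · -- the zero set
    intro x hx hP
    by_contra hxC
    obtain ⟨M, hM, h0, hsep⟩ := hG1 A x hx hxC
    obtain ⟨S, hZ, hpr, -⟩ := hAff A M hM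
    obtain ⟨N, G, hG, hc⟩ := hPoly S (lf M 3)
    have h1 := hP _ (vanish_mem A hM hZ hpr (hV S) hG hc)
    rw [eval_comp4, eval_scale hG h0] at h1
    have h2 := hN S (lf M 3) N G hc (S.pr ((lf M 0 x)⁻¹ • x)) (lf M 3 ((lf M 0 x)⁻¹ • x)) ?_
    · apply h2
      rw [hpr]
      simp only [map_smul, smul_eq_mul, Matrix.cons_val_zero, Matrix.cons_val_one]
      exact (mul_eq_zero.1 h1).resolve_left (pow_ne_zero _ h0)
    · intro v hv hv1 hv2
      rw [hZ] at hv
      rw [hpr, hpr] at hv1
      have e1 := congrFun hv1 0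
      have e2 := congrFun hv1 1
      simp only [Matrix.cons_val_zero, Matrix.cons_val_one, map_smul, smul_eq_mul] at e1 e2 hv2
      refine hsep (lf M 0 x • v) (A.smul v hv.1 _ h0) ?_
      intro r
      rw [map_smul, smul_eq_mul]
      fin_cases r
      · show lf M 0 x * lf M 0 v = lf M 0 x
        rw [hv.2, mul_one]
      · show lf M 0 x * lf M 1 v = lf M 1 x
        rw [e1]; field_simp
      · show lf M 0 x * lf M 2 v = lf M 2 x
        rw [e2]; field_simp
      · show lf M 0 x * lf M 3 v = lf M 3 x
        rw [hv2]; field_simp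
  · -- the Jacobian criterion
    intro i u hu κ hκ
    have htg : ∀ c : Fin 3 → ℂ, tg A i u c ∈ Submodule.span ℂ (Set.range
        ![A.F i u, fderiv ℂ (A.F i) u (Pi.single 0 1), fderiv ℂ (A.F i) u (Pi.single 1 1)]) := by
      intro c
      refine Submodule.add_mem _ (Submodule.add_mem _ ?_ ?_) ?_
      · exact Submodule.smul_mem _ _ (Submodule.subset_span ⟨0, rfl⟩)
      · exact Submodule.smul_mem _ _ (Submodule.subset_span ⟨1, rfl⟩)
      · exact Submodule.smul_mem _ _ (Submodule.subset_span ⟨2, rfl⟩)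
    by_contra hcon
    have hκt : ∀ c, κ ≠ tg A i u c := fun c h => hcon (h ▸ htg c)
    obtain ⟨M, hM, h0, hinj, hsep, hκM⟩ := hG2 A i u κ hu hκt
    obtain ⟨S, hZ, hpr, hch⟩ := hAff A M hM
    obtain ⟨N, G, hG, hc⟩ := hPoly S (lf M 3)
    have hmem := vanish_mem A hM hZ hpr (hV S) hG hc
    obtain ⟨j, u', hu', hfu', hJu'⟩ := hch i u hu h0
    set z := A.F i u with hz
    -- `∂₃ G ≠ 0`
    have h3 : MvPolynomial.eval (fun r => lf M r z) (MvPolynomial.pderiv 3 G) ≠ 0 := by
      rw [eval_scale hG.pderiv h0]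
      refine mul_ne_zero (pow_ne_zero _ h0) ?_
      have h4 := hJ S (lf M 3) N G hc j u' hu' (hJu' hinj) ?_
      · have hp : S.p j u' = ![(lf M 0 z)⁻¹ * lf M 1 z, (lf M 0 z)⁻¹ * lf M 2 z] := by
          show S.pr (S.f j u') = _
          rw [hfu', hpr]
          simp [map_smul, smul_eq_mul]
        rw [hp, hfu'] at h4
        simpa using h4
      · intro v hv hv1 hv2
        rw [hZ] at hv
        have hp : S.p j u' = S.pr (S.f j u') := rfl
        rw [hp, hfu', hpr, hpr] at hv1
        rw [hfu'] at hv2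
        have e1 := congrFun hv1 0
        have e2 := congrFun hv1 1
        simp only [Matrix.cons_val_zero, Matrix.cons_val_one, map_smul, smul_eq_mul] at e1 e2 hv2
        have h5 : lf M 0 z • v = z := by
          refine hsep (lf M 0 z • v) (A.smul v hv.1 _ h0) ?_
          intro r
          rw [map_smul, smul_eq_mul]
          fin_cases r
          · show lf M 0 z * lf M 0 v = lf M 0 z
            rw [hv.2, mul_one]
          · show lf M 0 z * lf M 1 v = lf M 1 z
            rw [e1]; field_simp
          · show lf M 0 z * lf M 2 v = lf M 2 z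
            rw [e2]; field_simp
          · show lf M 0 z * lf M 3 v = lf M 3 z
            rw [hv2]; field_simp
        rw [hfu', ← h5, smul_smul]
        rw [map_smul, hv.2, smul_eq_mul, mul_one, inv_mul_cancel₀ h0, one_smul]
    -- the differential
    let Λ : (Fin 4 → ℂ) → ℂ := fun y =>
      ∑ r, y r * MvPolynomial.eval (fun r => lf M r z) (MvPolynomial.pderiv r G)
    have hΛadd : ∀ y y', Λ (y - y') = Λ y - Λ y' := by
      intro y y'
      simp only [Λ, Pi.sub_apply, sub_mul, Finset.sum_sub_distrib]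
    -- along curves in the cone
    have hcurve : ∀ (γ : ℂ → (Fin n → ℂ)) (γ' : Fin n → ℂ), γ 0 = z → HasDerivAt γ γ' 0 →
        (∀ᶠ t in 𝓝 (0 : ℂ), MvPolynomial.eval (fun r => lf M r (γ t)) G = 0) →
        Λ (fun r => lf M r γ') = 0 := by
      intro γ γ' hγ0 hγ hv
      have h6 := hasDerivAt_eval G (fun t r => lf M r (γ t)) (fun r => lf M r γ') 0
        (fun r => (lf M r).hasFDerivAt.comp_hasDerivAt (0 : ℂ) hγ)
      have h7 : HasDerivAt (fun t => MvPolynomial.eval (fun r => lf M r (γ t)) G) 0 0 :=
        (hasDerivAt_const (0 : ℂ) (0 : ℂ)).congr_of_eventuallyEq hv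
      have h8 := h6.unique h7
      simp only [hγ0] at h8
      exact h8
    have hvan : ∀ v ∈ C, MvPolynomial.eval (fun r => lf M r v) G = 0 := fun v hv => by
      rw [← eval_comp4]; exact hmem.2 v hv
    have hdF : DifferentiableAt ℂ (A.F i) u := (A.diff i).differentiableAt ((A.openD i).mem_nhds hu)
    have hΛtg : ∀ c, Λ (fun r => lf M r (tg A i u c)) = 0 := by
      intro c
      refine hcurve (fun t => (1 + t * c 0) • A.F i (u + t • (c 1 • (Pi.single 0 1 : W)
        + c 2 • (Pi.single 1 1 : W)))) _ (by simp [hz]) ?_ ?_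
      · have hline : HasDerivAt (fun t : ℂ => u + t • (c 1 • (Pi.single 0 1 : W)
            + c 2 • (Pi.single 1 1 : W))) (c 1 • (Pi.single 0 1 : W)
            + c 2 • (Pi.single 1 1 : W)) 0 := by
          simpa using ((hasDerivAt_id (0 : ℂ)).smul_const (c 1 • (Pi.single 0 1 : W)
            + c 2 • (Pi.single 1 1 : W))).const_add u
        have hFl : HasDerivAt (fun t : ℂ => A.F i (u + t • (c 1 • (Pi.single 0 1 : W)
            + c 2 • (Pi.single 1 1 : W)))) (fderiv ℂ (A.F i) u (c 1 • (Pi.single 0 1 : W)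
            + c 2 • (Pi.single 1 1 : W))) 0 := by
          have h9 : HasFDerivAt (A.F i) (fderiv ℂ (A.F i) u) (u + (0 : ℂ) • (c 1 •
              (Pi.single 0 1 : W) + c 2 • (Pi.single 1 1 : W))) := by
            rw [zero_smul, add_zero]; exact hdF.hasFDerivAt
          exact h9.comp_hasDerivAt (0 : ℂ) hline
        have hs : HasDerivAt (fun t : ℂ => 1 + t * c 0) (c 0) 0 := by
          simpa using ((hasDerivAt_id (0 : ℂ)).mul_const (c 0)).const_add 1
        have h10 := hs.smul hFl
        refine h10.congr_deriv ?_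
        simp only [zero_smul, add_zero, zero_mul, one_smul, map_add, map_smul, tg]
        rw [← hz]
        abel
      · have hcont : Tendsto (fun t : ℂ => u + t • (c 1 • (Pi.single 0 1 : W)
            + c 2 • (Pi.single 1 1 : W))) (𝓝 0) (𝓝 u) := by
          have : Continuous (fun t : ℂ => u + t • (c 1 • (Pi.single 0 1 : W)
            + c 2 • (Pi.single 1 1 : W))) := by fun_prop
          simpa using this.tendsto 0
        have hne : ∀ᶠ t in 𝓝 (0 : ℂ), 1 + t * c 0 ≠ 0 := by
          have : Continuous (fun t : ℂ => 1 + t * c 0) := by fun_prop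
          have h11 := this.tendsto 0
          simp only [zero_mul, add_zero] at h11
          exact h11.eventually (isOpen_ne.mem_nhds one_ne_zero)
        filter_upwards [hcont.eventually ((A.openD i).mem_nhds hu), hne] with t ht htn
        exact hvan _ (A.smul _ (A.mem i _ ht) _ htn)
    have hΛκ : Λ (fun r => lf M r κ) = 0 := by
      have h6 := hasDerivAt_eval (comp4 M G) (fun t => z + t • κ) κ 0 (fun r => by
        simpa using ((hasDerivAt_id (0 : ℂ)).mul_const (κ r)).const_add (z r))
      have h7 := hasDerivAt_eval G (fun t r => lf M r (z + t • κ)) (fun r => lf M r κ) 0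
        (fun r => by
          have : HasDerivAt (fun t : ℂ => z + t • κ) κ 0 := by
            simpa using ((hasDerivAt_id (0 : ℂ)).smul_const κ).const_add z
          exact (lf M r).hasFDerivAt.comp_hasDerivAt (0 : ℂ) this)
      have h8 : (fun t : ℂ => MvPolynomial.eval (z + t • κ) (comp4 M G))
          = fun t => MvPolynomial.eval (fun r => lf M r (z + t • κ)) G :=
        funext fun t => eval_comp4 M G _
      rw [h8] at h6
      have h9 := h6.unique h7
      simp only [zero_smul, add_zero] at h9
      show ∑ r, lf M r κ * _ = 0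
      rw [← h9]
      exact hκ _ hmem
    -- solve for `c`
    let Lt : (Fin 3 → ℂ) →ₗ[ℂ] (Fin 3 → ℂ) :=
      { toFun := fun c => ![lf M 0 (tg A i u c), lf M 1 (tg A i u c), lf M 2 (tg A i u c)]
        map_add' := by
          intro c c'
          have : tg A i u (c + c') = tg A i u c + tg A i u c' := by
            simp only [tg, Pi.add_apply, add_smul]; abel
          ext r
          fin_cases r <;> simp [this]
        map_smul' := by
          intro s c
          have : tg A i u (s • c) = s • tg A i u c := by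
            simp only [tg, Pi.smul_apply, smul_eq_mul, smul_add, smul_smul]
          ext r
          fin_cases r <;> simp [this] }
    have hLinj : Function.Injective Lt := by
      rw [← LinearMap.ker_eq_bot, LinearMap.ker_eq_bot']
      intro c hc0
      refine hinj c ?_ ?_ ?_
      · exact congrFun hc0 0
      · exact congrFun hc0 1
      · exact congrFun hc0 2
    have hLsurj : Function.Surjective Lt := LinearMap.injective_iff_surjective.1 hLinj
    obtain ⟨c, hcc⟩ := hLsurj ![lf M 0 κ, lf M 1 κ, lf M 2 κ]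
    have c0 : lf M 0 (tg A i u c) = lf M 0 κ := congrFun hcc 0
    have c1 : lf M 1 (tg A i u c) = lf M 1 κ := congrFun hcc 1
    have c2 : lf M 2 (tg A i u c) = lf M 2 κ := congrFun hcc 2
    have h12 := hΛadd (fun r => lf M r κ) (fun r => lf M r (tg A i u c))
    rw [hΛκ, hΛtg, sub_zero] at h12
    simp only [Λ, Fin.sum_univ_four, Pi.sub_apply, c0, c1, c2, sub_self, zero_mul, zero_add]
      at h12
    have h13 := (mul_eq_zero.1 h12).resolve_right h3
    refine hκM c ?_
    intro r
    fin_cases r
    · exact c0.symm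
    · exact c1.symm
    · exact c2.symm
    · exact sub_eq_zero.1 h13

end Vale.Agent.P300.H86
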