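import Mathlib

/-!
# Entire functions of two variables with polynomial growth are polynomials
-/

open Complex Filter Set
open scoped Topology Real

namespace Vale.Agent.P300.H86

theorem poly_of_growth {f : ℂ → ℂ} (hf : Differentiable ℂ f) (n : ℕ) (C : ℝ)
    (hC : ∀ z, 1 ≤ ‖z‖ → ‖f z‖ ≤ C * ‖z‖ ^ n) :
    ∃ c : ℕ → ℂ, ∀ z, f z = ∑ i ∈ Finset.range (n + 1), c i * z ^ i := by
  have hzero : ∀ i, n < i → iteratedDeriv i f 0 = 0 := by
    intro i hi
    have hb : ∀ R : ℝ, 1 ≤ R → ‖iteratedDeriv i f 0‖ ≤ (i.factorial * C) * R⁻¹ := by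
      intro R hR
      have hR0 : 0 < R := lt_of_lt_of_le one_pos hR
      have h1 := norm_iteratedDeriv_le_of_forall_mem_sphere_norm_le (c := 0) (R := R)
        (C := C * R ^ n) i hR0 hf.diffContOnCl (by
          intro z hz
          have hz' : ‖z‖ = R := by simpa using hz
          have := hC z (by rw [hz']; exact hR)
          rwa [hz'] at this)
      have hC0 : 0 ≤ C := by
        have := hC 1 (by simp)
        simp at this
        exact le_trans (norm_nonneg _) this
      refine h1.trans ?_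
      obtain ⟨j, rfl⟩ : ∃ j, i = n + 1 + j := ⟨i - (n + 1), by omega⟩
      have h2 : (R ^ (n + 1 + j)) = R ^ n * (R * R ^ j) := by ring
      have h3 : 1 ≤ R ^ j := one_le_pow₀ hR
      rw [h2]
      have h4 : ((n + 1 + j).factorial : ℝ) * (C * R ^ n) / (R ^ n * (R * R ^ j))
          = ((n + 1 + j).factorial * C) * (R⁻¹ * (R ^ j)⁻¹) := by
        field_simp
      rw [h4]
      have h5 : R⁻¹ * (R ^ j)⁻¹ ≤ R⁻¹ := by
        have : (R ^ j)⁻¹ ≤ 1 := inv_le_one_of_one_le₀ h3
        calc R⁻¹ * (R ^ j)⁻¹ ≤ R⁻¹ * 1 := by gcongr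
          _ = R⁻¹ := mul_one _
      gcongr
    have hlim : Tendsto (fun R : ℝ => (i.factorial * C) * R⁻¹) atTop (𝓝 0) := by
      simpa using (tendsto_inv_atTop_zero (𝕜 := ℝ)).const_mul (i.factorial * C)
    have h0 : ‖iteratedDeriv i f 0‖ ≤ 0 := by
      refine ge_of_tendsto hlim ?_
      filter_upwards [eventually_ge_atTop 1] with R hR
      exact hb R hR
    exact norm_le_zero_iff.1 h0
  refine ⟨fun i => (i.factorial : ℂ)⁻¹ * iteratedDeriv i f 0, fun z => ?_⟩
  have h1 := hasSum_taylorSeries_of_entire hf 0 z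
  have h2 : HasSum (fun i : ℕ => (i.factorial : ℂ)⁻¹ • (z - 0) ^ i • iteratedDeriv i f 0)
      (∑ i ∈ Finset.range (n + 1),
        (i.factorial : ℂ)⁻¹ • (z - 0) ^ i • iteratedDeriv i f 0) := by
    apply hasSum_sum_of_ne_finset_zero
    intro i hi
    have : n < i := by simpa [Finset.mem_range] using hi
    rw [hzero i this]; simp
  rw [h1.unique h2]
  apply Finset.sum_congr rfl
  intro i _
  simp only [smul_eq_mul, sub_zero]
  ring

/-- `ℂ²`. -/
abbrev W : Type := Fin 2 → ℂ

open MvPolynomial in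
theorem hom_eval {σ : Type*} [Fintype σ] {P : MvPolynomial σ ℂ} {k : ℕ} (h : P.IsHomogeneous k)
    (z : ℂ) (w : σ → ℂ) : eval (z • w) P = z ^ k * eval w P := by
  classical
  rw [eval_eq', eval_eq', Finset.mul_sum]
  apply Finset.sum_congr rfl
  intro d hd
  have h1 := h (mem_support_iff.1 hd)
  have h2 : d.degree = k := by
    rw [← h1]
    simp [Finsupp.weight_apply, Finsupp.degree_eq_sum, Finsupp.sum_fintype]
  rw [Finsupp.degree_eq_sum] at h2
  have h3 : ∏ i, (z • w) i ^ d i = z ^ k * ∏ i, w i ^ d i := by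
    rw [← h2, ← Finset.prod_pow_eq_pow_sum, ← Finset.prod_mul_distrib]
    apply Finset.prod_congr rfl
    intro i _
    simp [mul_pow]
  rw [h3]; ring

open MvPolynomial in
/-- a polynomial with growth of order `m` has total degree at most `m`. -/
theorem totalDegree_le_of_growth {σ : Type*} [Fintype σ] (P : MvPolynomial σ ℂ) (m : ℕ) (C : ℝ)
    (hC : ∀ w : σ → ℂ, ‖eval w P‖ ≤ C * (1 + ‖w‖) ^ m) : P.totalDegree ≤ m := by
  classical
  by_contra hcon
  push Not at hcon
  set d := P.totalDegree with hd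
  -- top homogeneous component
  have htop : homogeneousComponent d P ≠ 0 := by
    intro h0
    have hP : P ≠ 0 := by
      rintro rfl
      rw [totalDegree_zero] at hd
      omega
    obtain ⟨s, hs, hsd⟩ := Finset.exists_mem_eq_sup P.support
      (by simpa [Finset.nonempty_iff_ne_empty] using hP) (fun s => s.sum fun _ e => e)
    have h1 : coeff s (homogeneousComponent d P) = 0 := by rw [h0]; simp
    rw [coeff_homogeneousComponent] at h1
    have h2 : s.degree = d := by
      rw [hd, totalDegree, hsd]; rfl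
    rw [if_pos h2] at h1
    exact (mem_support_iff.1 hs) h1
  have hfun : ∃ w : σ → ℂ, eval w (homogeneousComponent d P) ≠ 0 := by
    by_contra hall
    push Not at hall
    exact htop (MvPolynomial.funext (fun w => by simpa using hall w))
  obtain ⟨w, hw⟩ := hfun
  -- the one variable polynomial
  let p : ℕ → ℂ := fun k => eval w (homogeneousComponent k P)
  have hsum : ∀ z : ℂ, eval (z • w) P = ∑ k ∈ Finset.range (d + 1), p k * z ^ k := by
    intro z
    conv_lhs => rw [← sum_homogeneousComponent P]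
    rw [map_sum]
    apply Finset.sum_congr (by rw [hd])
    intro k _
    rw [hom_eval (homogeneousComponent_isHomogeneous k P)]
    simp only [p]; ring
  have hC0 : 0 ≤ C := by
    have := hC 0
    simp at this
    exact le_trans (norm_nonneg _) this
  have hb : ∀ R : ℝ, 1 ≤ R → ‖p d‖ ≤
      (C * (1 + ‖w‖) ^ m + ∑ k ∈ Finset.range d, ‖p k‖) * R⁻¹ := by
    intro R hR
    have hR0 : 0 < R := lt_of_lt_of_le one_pos hR
    have h1 := hsum (R : ℂ)
    rw [Finset.sum_range_succ] at h1
    have h2 : p d * (R : ℂ) ^ d = eval ((R : ℂ) • w) P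
        - ∑ k ∈ Finset.range d, p k * (R : ℂ) ^ k := by rw [h1]; ring
    have h3 : ‖p d‖ * R ^ d ≤ C * (1 + ‖(R : ℂ) • w‖) ^ m
        + ∑ k ∈ Finset.range d, ‖p k‖ * R ^ k := by
      have h4 : ‖p d * (R : ℂ) ^ d‖ = ‖p d‖ * R ^ d := by
        rw [norm_mul, norm_pow, Complex.norm_real, Real.norm_of_nonneg hR0.le]
      rw [← h4, h2]
      refine (norm_sub_le _ _).trans (add_le_add (hC _) ?_)
      refine (norm_sum_le _ _).trans (Finset.sum_le_sum fun k _ => ?_)
      rw [norm_mul, norm_pow, Complex.norm_real, Real.norm_of_nonneg hR0.le]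
    obtain ⟨j, hj⟩ : ∃ j, d = m + 1 + j := ⟨d - (m + 1), by omega⟩
    have hRd : 0 < R ^ d := pow_pos hR0 _
    have h5 : C * (1 + ‖(R : ℂ) • w‖) ^ m ≤ C * (1 + ‖w‖) ^ m * (R⁻¹ * R ^ d) := by
      have h6 : (1 + ‖(R : ℂ) • w‖) ≤ R * (1 + ‖w‖) := by
        rw [norm_smul, Complex.norm_real, Real.norm_of_nonneg hR0.le]
        nlinarith [norm_nonneg w]
      have h7 : (1 + ‖(R : ℂ) • w‖) ^ m ≤ (R * (1 + ‖w‖)) ^ m :=
        pow_le_pow_left₀ (by positivity) h6 m
      have h8 : R ^ m ≤ R⁻¹ * R ^ d := by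
        rw [hj]
        have : R⁻¹ * R ^ (m + 1 + j) = R ^ m * R ^ j := by
          field_simp
          ring
        rw [this]
        nlinarith [one_le_pow₀ hR (n := j), pow_pos hR0 m]
      calc C * (1 + ‖(R : ℂ) • w‖) ^ m ≤ C * (R * (1 + ‖w‖)) ^ m := by gcongr
        _ = C * (1 + ‖w‖) ^ m * R ^ m := by rw [mul_pow]; ring
        _ ≤ _ := by gcongr
    have h9 : ∑ k ∈ Finset.range d, ‖p k‖ * R ^ k
        ≤ (∑ k ∈ Finset.range d, ‖p k‖) * (R⁻¹ * R ^ d) := by
      rw [Finset.sum_mul]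
      apply Finset.sum_le_sum
      intro k hk
      have hk' : k + 1 ≤ d := by simpa [Finset.mem_range] using hk
      have : R ^ k ≤ R⁻¹ * R ^ d := by
        obtain ⟨i, hi⟩ := Nat.exists_eq_add_of_le hk'
        rw [hi]
        have : R⁻¹ * R ^ (k + 1 + i) = R ^ k * R ^ i := by
          field_simp
          ring
        rw [this]
        nlinarith [one_le_pow₀ hR (n := i), pow_pos hR0 k]
      gcongr
    have h10 : ‖p d‖ * R ^ d ≤ ((C * (1 + ‖w‖) ^ m + ∑ k ∈ Finset.range d, ‖p k‖) * R⁻¹)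
        * R ^ d := by
      calc _ ≤ _ := h3
        _ ≤ C * (1 + ‖w‖) ^ m * (R⁻¹ * R ^ d)
          + (∑ k ∈ Finset.range d, ‖p k‖) * (R⁻¹ * R ^ d) := add_le_add h5 h9
        _ = _ := by ring
    exact le_of_mul_le_mul_right h10 hRd
  have hlim : Tendsto (fun R : ℝ => (C * (1 + ‖w‖) ^ m + ∑ k ∈ Finset.range d, ‖p k‖) * R⁻¹)
      atTop (𝓝 0) := by
    simpa using (tendsto_inv_atTop_zero (𝕜 := ℝ)).const_mul
      (C * (1 + ‖w‖) ^ m + ∑ k ∈ Finset.range d, ‖p k‖)
  have h0 : ‖p d‖ ≤ 0 := by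
    refine ge_of_tendsto hlim ?_
    filter_upwards [eventually_ge_atTop 1] with R hR
    exact hb R hR
  exact hw (norm_le_zero_iff.1 h0)

/-- Lagrange type inversion: the coefficients of a polynomial of degree at most `m` are fixed
linear combinations of the values at `0, .., m`. -/
theorem exists_interp (m : ℕ) : ∃ L : ℕ → ℕ → ℂ, ∀ c : ℕ → ℂ, ∀ j ≤ m,
    c j = ∑ i ∈ Finset.range (m + 1), L j i *
      (∑ k ∈ Finset.range (m + 1), c k * (i : ℂ) ^ k) := by
  classical
  let V : Matrix (Fin (m + 1)) (Fin (m + 1)) ℂ := Matrix.vandermonde (fun i => ((i : ℕ) : ℂ))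
  have hV : IsUnit V.det := by
    rw [isUnit_iff_ne_zero, Ne, Matrix.det_vandermonde_eq_zero_iff]
    rintro ⟨i, j, h, hij⟩
    apply hij
    have : ((i : ℕ) : ℂ) = ((j : ℕ) : ℂ) := h
    exact Fin.ext (by exact_mod_cast this)
  refine ⟨fun j i => if hj : j < m + 1 then if hi : i < m + 1 then V⁻¹ ⟨j, hj⟩ ⟨i, hi⟩ else 0
    else 0, fun c j hj => ?_⟩
  have hj' : j < m + 1 := by omega
  rw [Finset.sum_range]
  have h1 : ∀ i : Fin (m + 1), (∑ k ∈ Finset.range (m + 1), c k * ((i : ℕ) : ℂ) ^ k)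
      = (V.mulVec (fun k : Fin (m + 1) => c k)) i := by
    intro i
    rw [Finset.sum_range]
    simp only [Matrix.mulVec, dotProduct, V, Matrix.vandermonde_apply]
    exact Finset.sum_congr rfl fun k _ => by ring
  have h2 : (V⁻¹.mulVec (V.mulVec (fun k : Fin (m + 1) => c k))) ⟨j, hj'⟩ = c j := by
    rw [Matrix.mulVec_mulVec, Matrix.nonsing_inv_mul _ hV, Matrix.one_mulVec]
  rw [← h2]
  simp only [Matrix.mulVec, dotProduct]
  apply Finset.sum_congr rfl
  intro i _
  rw [dif_pos hj', dif_pos i.2]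
  congr 1
  rw [Finset.sum_range]
  simp only [V, Matrix.vandermonde_apply]
  exact Finset.sum_congr rfl fun k _ => by ring

open MvPolynomial in
/-- **Liouville in `ℂ²`**: an entire function of polynomial growth is a polynomial. -/
theorem entire_poly {H : W → ℂ} (hH : Differentiable ℂ H) (m : ℕ) (C : ℝ)
    (hC : ∀ w, ‖H w‖ ≤ C * (1 + ‖w‖) ^ m) :
    ∃ P : MvPolynomial (Fin 2) ℂ, P.totalDegree ≤ m ∧ ∀ w, H w = eval w P := by
  classical
  have hC0 : 0 ≤ C := by
    have := hC 0
    simp at this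
    exact le_trans (norm_nonneg _) this
  obtain ⟨L, hL⟩ := exists_interp m
  -- polynomial in the first variable
  have h1 : ∀ b : ℂ, ∃ c : ℕ → ℂ, ∀ a, H ![a, b] = ∑ i ∈ Finset.range (m + 1), c i * a ^ i := by
    intro b
    refine poly_of_growth (f := fun a => H ![a, b]) ?_ m (C * (2 + ‖b‖) ^ m) ?_
    · apply hH.comp
      rw [differentiable_pi]
      intro i
      fin_cases i <;> simp
    · intro z hz
      refine (hC _).trans ?_
      rw [mul_assoc, ← mul_pow]
      have : ‖(![z, b] : W)‖ ≤ ‖z‖ + ‖b‖ := by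
        rw [pi_norm_le_iff_of_nonneg (by positivity)]
        intro i
        fin_cases i <;> simp
      have h2 : 1 + ‖(![z, b] : W)‖ ≤ (2 + ‖b‖) * ‖z‖ := by
        nlinarith [norm_nonneg b, norm_nonneg z]
      gcongr
  choose c hc using h1
  have h2 : ∀ b, ∀ j ≤ m, c b j = ∑ i ∈ Finset.range (m + 1), L j i * H ![(i : ℂ), b] := by
    intro b j hj
    rw [hL (c b) j hj]
    exact Finset.sum_congr rfl fun i _ => by rw [hc]
  -- the coefficients are polynomials in the second variable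
  have h3 : ∀ j ≤ m, ∃ d : ℕ → ℂ, ∀ b, c b j = ∑ i ∈ Finset.range (m + 1), d i * b ^ i := by
    intro j hj
    have h4 := poly_of_growth (f := fun b => c b j) (n := m)
      (C := ∑ i ∈ Finset.range (m + 1), ‖L j i‖ * (C * (2 + (i : ℝ)) ^ m)) ?_ ?_
    · exact h4
    · have : (fun b => c b j) = fun b => ∑ i ∈ Finset.range (m + 1), L j i * H ![(i : ℂ), b] :=
        funext fun b => h2 b j hj
      rw [this]
      refine Differentiable.fun_sum fun i _ => ?_
      refine Differentiable.const_mul ?_ _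
      apply hH.comp
      rw [differentiable_pi]
      intro i
      fin_cases i <;> simp
    · intro z hz
      rw [h2 z j hj, Finset.sum_mul]
      refine (norm_sum_le _ _).trans (Finset.sum_le_sum fun i _ => ?_)
      rw [norm_mul, mul_assoc]
      gcongr
      refine (hC _).trans ?_
      rw [mul_assoc, ← mul_pow]
      have : ‖(![(i : ℂ), z] : W)‖ ≤ (i : ℝ) + ‖z‖ := by
        rw [pi_norm_le_iff_of_nonneg (by positivity)]
        intro k
        fin_cases k <;> simp
      have h2 : 1 + ‖(![(i : ℂ), z] : W)‖ ≤ (2 + (i : ℝ)) * ‖z‖ := by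
        have hi : (0 : ℝ) ≤ (i : ℝ) := Nat.cast_nonneg _
        nlinarith [norm_nonneg z]
      gcongr
  choose! d hd using h3
  let P : MvPolynomial (Fin 2) ℂ := ∑ j ∈ Finset.range (m + 1), ∑ i ∈ Finset.range (m + 1),
    MvPolynomial.C (d j i) * X 0 ^ j * X 1 ^ i
  have hP : ∀ w, H w = eval w P := by
    intro w
    have hw : w = ![w 0, w 1] := by ext i; fin_cases i <;> rfl
    rw [hw, hc (w 1) (w 0)]
    simp only [P, map_sum, map_mul, map_pow, eval_C, eval_X, Matrix.cons_val_zero,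
      Matrix.cons_val_one]
    apply Finset.sum_congr rfl
    intro j hj
    have hj' : j ≤ m := by simpa [Finset.mem_range, Nat.lt_succ_iff] using hj
    rw [hd j hj' (w 1), Finset.sum_mul]
    exact Finset.sum_congr rfl fun i _ => by ring
  refine ⟨P, totalDegree_le_of_growth P m C (fun w => by rw [← hP]; exact hC w), hP⟩

end Vale.Agent.P300.H86
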