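import Vale.Agent.P300.H86.Lio

/-!
# Weakly holomorphic functions of polynomial growth on `ℂ²` are polynomials
-/

open Complex Filter Set MeasureTheory ContinuousLinearMap
open scoped Topology Real Convolution ContDiff

namespace Vale.Agent.P300.H86

/-- the standard basis vector. -/
noncomputable def bs (j : Fin 2) (z : ℂ) : W := Pi.single j z

theorem bs_add (j : Fin 2) (z z' : ℂ) : bs j (z + z') = bs j z + bs j z' := Pi.single_add _ _ _

theorem bs_smul (j : Fin 2) (c z : ℂ) : bs j (c * z) = c • bs j z := by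
  unfold bs; rw [← Pi.single_smul]; rfl

theorem bs_rsmul (j : Fin 2) (c : ℝ) (z : ℂ) : bs j (c * z) = c • bs j z := by
  unfold bs; rw [← Pi.single_smul]
  congr 1

theorem W_eq (w : W) : w = bs 0 (w 0) + bs 1 (w 1) := by
  ext i
  fin_cases i <;> simp [bs]

theorem bs_reim (j : Fin 2) (z : ℂ) : bs j z = z.re • bs j 1 + z.im • bs j I := by
  rw [← bs_rsmul, ← bs_rsmul, ← bs_add]
  congr 1
  simp [Complex.re_add_im]

/-- Weak holomorphy in `ℂ²`. -/
def WeakHol (T : W → ℂ) : Prop :=
  ∀ ψ : W → ℝ, ContDiff ℝ ∞ ψ → HasCompactSupport ψ → ∀ j : Fin 2,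
    ∫ w, T w * ((fderiv ℝ ψ w (bs j 1) : ℂ) + I * (fderiv ℝ ψ w (bs j I) : ℂ)) = 0

/-- A real linear map on `ℂ²` with the two Cauchy-Riemann identities is complex linear. -/
theorem exists_restrictScalars (L : W →L[ℝ] ℂ)
    (h : ∀ j : Fin 2, L (bs j 1) + I * L (bs j I) = 0) :
    ∃ g : W →L[ℂ] ℂ, g.restrictScalars ℝ = L := by
  have hI : ∀ j, L (bs j I) = I * L (bs j 1) := by
    intro j
    have := h j
    linear_combination (-I) * this + L (bs j I) * I_sq
  have hj : ∀ j z, L (bs j z) = z * L (bs j 1) := by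
    intro j z
    rw [bs_reim, map_add, map_smul, map_smul, hI]
    conv_rhs => rw [← Complex.re_add_im z]
    simp only [real_smul]
    ring
  have hw : ∀ w, L w = w 0 * L (bs 0 1) + w 1 * L (bs 1 1) := by
    intro w
    conv_lhs => rw [W_eq w]
    rw [map_add, hj 0, hj 1]
  refine ⟨(ContinuousLinearMap.proj (R := ℂ) (φ := fun _ : Fin 2 => ℂ) 0).smulRight (L (bs 0 1))
    + (ContinuousLinearMap.proj (R := ℂ) (φ := fun _ : Fin 2 => ℂ) 1).smulRight (L (bs 1 1)), ?_⟩
  ext w
  rw [hw w]
  simp

theorem moll_differentiable {T : W → ℂ} (hT : LocallyIntegrable T) (hw : WeakHol T)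
    {f : W → ℝ} (hf : ContDiff ℝ ∞ f) (hcf : HasCompactSupport f) :
    Differentiable ℂ (f ⋆[lsmul ℝ ℝ, volume] T) := by
  intro x
  have h1 := hcf.hasFDerivAt_convolution_left (lsmul ℝ ℝ : ℝ →L[ℝ] ℂ →L[ℝ] ℂ)
    (μ := (volume : Measure W)) (hf.of_le (by simp)) hT x
  refine (differentiableAt_iff_restrictScalars ℝ h1.differentiableAt).2 ?_
  rw [h1.fderiv]
  apply exists_restrictScalars
  intro j
  -- the value of the derivative
  have hcd : HasCompactSupport (fderiv ℝ f) := hcf.fderiv (𝕜 := ℝ)
  have hcont : Continuous (fderiv ℝ f) := (hf.continuous_fderiv (by simp))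
  have hex : ConvolutionExistsAt (fderiv ℝ f) T x
      ((lsmul ℝ ℝ : ℝ →L[ℝ] ℂ →L[ℝ] ℂ).precompL W) volume :=
    (hcd.convolutionExists_left _ hcont hT) x
  have hval : ∀ v : W, ((fderiv ℝ f ⋆[(lsmul ℝ ℝ : ℝ →L[ℝ] ℂ →L[ℝ] ℂ).precompL W, volume] T) x) v
      = ∫ t, T t * ((fderiv ℝ f (x - t) v : ℝ) : ℂ) := by
    intro v
    have h2 : ((fderiv ℝ f ⋆[(lsmul ℝ ℝ : ℝ →L[ℝ] ℂ →L[ℝ] ℂ).precompL W, volume] T) x) v
        = ∫ t, ((fderiv ℝ f t v : ℝ) : ℂ) * T (x - t) := by
      rw [convolution_def, ContinuousLinearMap.integral_apply hex]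
      apply integral_congr_ae
      filter_upwards with t
      simp [ContinuousLinearMap.precompL_apply]
    rw [h2, ← integral_sub_left_eq_self _ volume x]
    apply integral_congr_ae
    filter_upwards with t
    rw [sub_sub_cancel, mul_comm]
  have hint : ∀ v : W, Integrable (fun t => T t * ((fderiv ℝ f (x - t) v : ℝ) : ℂ)) := by
    intro v
    have hc : Continuous (fun t : W => ((fderiv ℝ f (x - t) v : ℝ) : ℂ)) := by
      apply Complex.continuous_ofReal.comp
      exact (hcont.comp (continuous_const.sub continuous_id)).clm_apply continuous_const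
    have hs : HasCompactSupport (fun t : W => ((fderiv ℝ f (x - t) v : ℝ) : ℂ)) := by
      have h3 : HasCompactSupport (fun t : W => fderiv ℝ f (x - t)) :=
        hcd.comp_homeomorph (Homeomorph.subLeft x)
      exact h3.comp_left (g := fun L : W →L[ℝ] ℝ => ((L v : ℝ) : ℂ)) (by simp)
    have := hT.integrable_smul_left_of_hasCompactSupport hc hs
    simpa [mul_comm] using this
  rw [hval, hval]
  -- test function
  have hψ : ContDiff ℝ ∞ (fun s : W => f (x - s)) := hf.comp (contDiff_const.sub contDiff_id)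
  have hcψ : HasCompactSupport (fun s : W => f (x - s)) :=
    hcf.comp_homeomorph (Homeomorph.subLeft x)
  have hfd : ∀ s v, fderiv ℝ (fun s : W => f (x - s)) s v = - fderiv ℝ f (x - s) v := by
    intro s v
    have h4 : HasFDerivAt (fun s : W => f (x - s))
        ((fderiv ℝ f (x - s)).comp (-(ContinuousLinearMap.id ℝ W))) s := by
      have h5 : HasFDerivAt (fun s : W => x - s) (-(ContinuousLinearMap.id ℝ W)) s := by
        simpa using (hasFDerivAt_id (𝕜 := ℝ) s).const_sub x
      exact ((hf.differentiable (by simp)).differentiableAt.hasFDerivAt).comp s h5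
    rw [h4.fderiv]
    simp
  have h6 := hw _ hψ hcψ j
  have h7 : (fun w => T w * (((fderiv ℝ (fun s : W => f (x - s)) w (bs j 1) : ℝ) : ℂ)
      + I * ((fderiv ℝ (fun s : W => f (x - s)) w (bs j I) : ℝ) : ℂ)))
      = fun w => -(T w * ((fderiv ℝ f (x - w) (bs j 1) : ℝ) : ℂ)
        + I * (T w * ((fderiv ℝ f (x - w) (bs j I) : ℝ) : ℂ))) := by
    funext w
    rw [hfd, hfd]
    push_cast
    ring
  rw [h7, integral_neg, integral_add (hint _) ((hint _).const_mul I), integral_const_mul] at h6
  exact neg_eq_zero.1 h6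

/-- an entire function with real values is constant. -/
theorem const_of_im_eq_zero {H : W → ℂ} (hH : Differentiable ℂ H) (h : ∀ w, (H w).im = 0) :
    ∀ w, H w = H 0 := by
  have hd : ∀ w, fderiv ℂ H w = 0 := by
    intro w
    have him : ∀ v, (fderiv ℂ H w v).im = 0 := by
      intro v
      have h1 : HasFDerivAt H ((fderiv ℂ H w).restrictScalars ℝ) w :=
        (hH w).hasFDerivAt.restrictScalars ℝ
      have h2 : HasFDerivAt (fun w => (H w).im)
          (Complex.imCLM.comp ((fderiv ℂ H w).restrictScalars ℝ)) w :=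
        (Complex.imCLM.hasFDerivAt).comp w h1
      have h3 : HasFDerivAt (fun w => (H w).im) (0 : W →L[ℝ] ℝ) w := by
        have : (fun w => (H w).im) = fun _ => (0 : ℝ) := funext h
        rw [this]
        exact hasFDerivAt_const _ _
      have h4 := congrArg (fun L : W →L[ℝ] ℝ => L v) (h2.unique h3)
      simpa using h4
    ext v
    have h1 := him v
    have h2 := him (I • v)
    rw [map_smul] at h2
    simp at h2
    apply Complex.ext
    · simpa using h2
    · simpa using h1
  intro w
  exact is_const_of_fderiv_eq_zero (𝕜 := ℂ) hH hd w 0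

/-- a sequence of bumps shrinking to `0`. -/
noncomputable def bump (k : ℕ) : ContDiffBump (0 : W) where
  rIn := 1 / (2 * ((k : ℝ) + 1))
  rOut := 1 / ((k : ℝ) + 1)
  rIn_pos := by positivity
  rIn_lt_rOut := by
    apply one_div_lt_one_div_of_lt (by positivity)
    have : (0 : ℝ) ≤ k := Nat.cast_nonneg _
    linarith

theorem bump_rOut_le (k : ℕ) : (bump k).rOut ≤ 1 := by
  show 1 / ((k : ℝ) + 1) ≤ 1
  rw [div_le_one (by positivity)]
  have : (0 : ℝ) ≤ k := Nat.cast_nonneg _
  linarith

theorem bump_tendsto {T : W → ℂ} (hT : LocallyIntegrable T) :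
    ∀ᵐ x, Tendsto (fun k => ((bump k).normed volume ⋆[lsmul ℝ ℝ, volume] T) x) atTop
      (𝓝 (T x)) := by
  refine ContDiffBump.ae_convolution_tendsto_right_of_locallyIntegrable (K := 2) ?_ ?_ hT
  · exact tendsto_one_div_add_atTop_nhds_zero_nat
  · filter_upwards with k
    show 1 / ((k : ℝ) + 1) ≤ 2 * (1 / (2 * ((k : ℝ) + 1)))
    apply le_of_eq
    field_simp

/-- a weakly holomorphic locally integrable real function is a.e. constant. -/
theorem const_of_weakHol {T : W → ℂ} (hT : LocallyIntegrable T) (hw : WeakHol T)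
    (him : ∀ w, (T w).im = 0) : ∃ c : ℂ, ∀ᵐ w, T w = c := by
  have h1 : ∀ k x, (((bump k).normed volume ⋆[lsmul ℝ ℝ, volume] T) x)
      = ((bump k).normed volume ⋆[lsmul ℝ ℝ, volume] T) 0 := by
    intro k
    have hd := moll_differentiable hT hw ((bump k).contDiff_normed (μ := (volume : Measure W)))
      ((bump k).hasCompactSupport_normed (μ := (volume : Measure W)))
    refine const_of_im_eq_zero hd ?_
    intro x
    rw [convolution_def]
    have : (fun t => (lsmul ℝ ℝ : ℝ →L[ℝ] ℂ →L[ℝ] ℂ) ((bump k).normed volume t) (T (x - t)))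
        = fun t => (((bump k).normed volume t * (T (x - t)).re : ℝ) : ℂ) := by
      funext t
      apply Complex.ext <;> simp [him]
    rw [this, integral_complex_ofReal]
    exact Complex.ofReal_im _
  have h2 := bump_tendsto hT
  obtain ⟨x₀, hx₀⟩ := h2.exists
  refine ⟨T x₀, ?_⟩
  filter_upwards [h2] with x hx
  simp only [h1] at hx hx₀
  exact tendsto_nhds_unique hx hx₀

open MvPolynomial in
/-- a weakly holomorphic function with polynomial growth is a.e. a polynomial. -/
theorem poly_of_weakHol {T : W → ℂ} (hT : LocallyIntegrable T) (hw : WeakHol T) (m : ℕ) (C : ℝ)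
    (hC : ∀ᵐ w, ‖T w‖ ≤ C * (1 + ‖w‖) ^ m) :
    ∃ P : MvPolynomial (Fin 2) ℂ, P.totalDegree ≤ m ∧ ∀ᵐ w, T w = eval w P := by
  have hC0 : 0 ≤ C := by
    obtain ⟨w, hw⟩ := hC.exists
    by_contra hneg
    push Not at hneg
    have h1 : 0 < (1 + ‖w‖) ^ m := by positivity
    nlinarith [norm_nonneg (T w)]
  -- the mollified functions are polynomials
  have h1 : ∀ k, ∃ P : MvPolynomial (Fin 2) ℂ, P.totalDegree ≤ m ∧
      ∀ x, ((bump k).normed volume ⋆[lsmul ℝ ℝ, volume] T) x = eval x P := by
    intro k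
    have hd := moll_differentiable hT hw ((bump k).contDiff_normed (μ := (volume : Measure W)))
      ((bump k).hasCompactSupport_normed (μ := (volume : Measure W)))
    refine entire_poly hd m (C * 2 ^ m) ?_
    intro x
    rw [convolution_def]
    have hb : ∀ᵐ t, ‖(lsmul ℝ ℝ : ℝ →L[ℝ] ℂ →L[ℝ] ℂ) ((bump k).normed volume t) (T (x - t))‖
        ≤ (bump k).normed volume t * (C * 2 ^ m * (1 + ‖x‖) ^ m) := by
      have hC' : ∀ᵐ t, ‖T (x - t)‖ ≤ C * (1 + ‖x - t‖) ^ m := by
        exact (quasiMeasurePreserving_sub_left_of_right_invariant (volume : Measure W) x).ae hC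
      filter_upwards [hC'] with t ht
      rw [lsmul_apply, norm_smul, Real.norm_of_nonneg ((bump k).nonneg_normed t)]
      by_cases h0 : (bump k).normed volume t = 0
      · rw [h0]; simp
      · have hmem : t ∈ Function.support ((bump k).normed volume) := h0
        rw [(bump k).support_normed_eq, Metric.mem_ball, dist_zero_right] at hmem
        have ht1 : ‖t‖ ≤ 1 := hmem.le.trans (bump_rOut_le k)
        refine mul_le_mul_of_nonneg_left (ht.trans ?_) ((bump k).nonneg_normed t)
        rw [mul_assoc, ← mul_pow]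
        have h5 : 1 + ‖x - t‖ ≤ 2 * (1 + ‖x‖) := by
          have := norm_sub_le x t
          nlinarith [norm_nonneg x]
        gcongr
    refine (norm_integral_le_of_norm_le ?_ hb).trans ?_
    · exact ((bump k).integrable_normed).mul_const _
    · rw [integral_mul_const, (bump k).integral_normed, one_mul]
  choose P hPd hP using h1
  have h2 := bump_tendsto hT
  -- closedness of a finite dimensional subspace for pointwise convergence
  let V : Submodule ℂ (MvPolynomial (Fin 2) ℂ) := restrictTotalDegree (Fin 2) ℂ m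
  let G : Set W := {x | Tendsto (fun k => ((bump k).normed volume ⋆[lsmul ℝ ℝ, volume] T) x) atTop
      (𝓝 (T x))}
  let ev : MvPolynomial (Fin 2) ℂ →ₗ[ℂ] (G → ℂ) :=
    { toFun := fun P x => eval x.1 P
      map_add' := fun P Q => by ext x; simp
      map_smul' := fun c P => by ext x; simp [smul_eval] }
  have : FiniteDimensional ℂ V := by
    infer_instance
  have : FiniteDimensional ℂ (V.map ev) := by infer_instance
  have hclosed : IsClosed ((V.map ev : Submodule ℂ (G → ℂ)) : Set (G → ℂ)) :=
    Submodule.closed_of_finiteDimensional _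
  have hlim : Tendsto (fun k => ev (P k)) atTop (𝓝 (fun x : G => T x.1)) := by
    rw [tendsto_pi_nhds]
    intro x
    have := x.2
    simp only [G, mem_ofPred_eq, hP] at this
    exact this
  have hmem : (fun x : G => T x.1) ∈ ((V.map ev : Submodule ℂ (G → ℂ)) : Set (G → ℂ)) := by
    refine hclosed.mem_of_tendsto hlim (Eventually.of_forall fun k => ?_)
    refine Submodule.mem_map_of_mem ?_
    rw [mem_restrictTotalDegree]
    exact hPd k
  obtain ⟨Q, hQ, hQe⟩ := hmem
  refine ⟨Q, (mem_restrictTotalDegree _ _ _).1 hQ, ?_⟩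
  filter_upwards [h2] with x hx
  have := congrFun hQe ⟨x, hx⟩
  exact this.symm

end Vale.Agent.P300.H86
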