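import Vale.Agent.P300.H86.Spec

/-!
# P300 [CHOW]: from the projective atlas to the affine part; exact statements
-/

open Complex Filter Set MeasureTheory
open scoped Topology ContDiff ENNReal ComplexConjugate

namespace Vale.Agent.P300.H86

variable {n : ℕ} {C : Set (Fin n → ℂ)}

/-- the `r`-th linear form of the matrix `M` -/
noncomputable def lf (M : Fin 4 → Fin n → ℂ) (r : Fin 4) : (Fin n → ℂ) →L[ℂ] ℂ :=
  ∑ b, M r b • (ContinuousLinearMap.proj b : (Fin n → ℂ) →L[ℂ] ℂ)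

theorem lf_apply (M : Fin 4 → Fin n → ℂ) (r : Fin 4) (v : Fin n → ℂ) :
    lf M r v = ∑ b, M r b * v b := by
  simp [lf, ContinuousLinearMap.sum_apply]

/-- the tangent vector `c₀ F + c₁ ∂₁F + c₂ ∂₂F` of the cone. -/
noncomputable def tg (A : ProjAtlas C) (i : A.ι) (u : W) (c : Fin 3 → ℂ) : Fin n → ℂ :=
  c 0 • A.F i u + c 1 • fderiv ℂ (A.F i) u (Pi.single 0 1)
    + c 2 • fderiv ℂ (A.F i) u (Pi.single 1 1)

/-- `(l₀, l₁, l₂)` is injective on the tangent space of the cone at `F i u`. -/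
def Inj3 (A : ProjAtlas C) (M : Fin 4 → Fin n → ℂ) (i : A.ι) (u : W) : Prop :=
  ∀ c : Fin 3 → ℂ, lf M 0 (tg A i u c) = 0 → lf M 1 (tg A i u c) = 0 →
    lf M 2 (tg A i u c) = 0 → c = 0

/-- the conditions on `l₀, l₁, l₂` which give a proper projection of the affine part. -/
structure Good (A : ProjAtlas C) (M : Fin 4 → Fin n → ℂ) : Prop where
  nozero : ∀ v ∈ C, lf M 0 v = 0 → lf M 1 v = 0 → lf M 2 v = 0 → False
  dense : ∀ i, ∀ U : Set W, IsOpen U → U ⊆ A.D i → U.Nonempty →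
    ∃ u ∈ U, lf M 0 (A.F i u) ≠ 0 ∧ Inj3 A M i u

/-- [PROJ1] the affine part. -/
def AffPart : Prop := ∀ {n : ℕ} {C : Set (Fin n → ℂ)} (A : ProjAtlas C) (M : Fin 4 → Fin n → ℂ),
  Good A M → ∃ S : Aff n, S.Z = {v | v ∈ C ∧ lf M 0 v = 1} ∧
    (∀ v, S.pr v = ![lf M 1 v, lf M 2 v]) ∧
    ∀ i, ∀ u ∈ A.D i, lf M 0 (A.F i u) ≠ 0 → ∃ j : S.ι, ∃ u' ∈ S.D j,
      S.f j u' = (lf M 0 (A.F i u))⁻¹ • A.F i u ∧ (Inj3 A M i u → Jac (S.p j) u' ≠ 0)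

/-- [GENM1] a generic matrix separates a point `x ∉ C` from `C`. -/
def GenM1 : Prop := ∀ {n : ℕ} {C : Set (Fin n → ℂ)} (A : ProjAtlas C) (x : Fin n → ℂ),
  x ≠ 0 → x ∉ C → ∃ M : Fin 4 → Fin n → ℂ, Good A M ∧ lf M 0 x ≠ 0 ∧
    ∀ v ∈ C, (∀ r, lf M r v = lf M r x) → False

/-- [GENM2] a generic matrix at a point of `C` and a vector `κ` which is not tangent. -/
def GenM2 : Prop := ∀ {n : ℕ} {C : Set (Fin n → ℂ)} (A : ProjAtlas C) (i : A.ι) (u : W)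
  (κ : Fin n → ℂ), u ∈ A.D i → (∀ c, κ ≠ tg A i u c) →
    ∃ M : Fin 4 → Fin n → ℂ, Good A M ∧ lf M 0 (A.F i u) ≠ 0 ∧ Inj3 A M i u ∧
      (∀ v ∈ C, (∀ r, lf M r v = lf M r (A.F i u)) → v = A.F i u) ∧
      ∀ c, ¬ ∀ r, lf M r κ = lf M r (tg A i u c)

end Vale.Agent.P300.H86
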