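import Vale.Agent.P300.H86.Spec

/-!
# P300 [CHOW]: weak holomorphy of the trace
-/

open Complex Filter Set MeasureTheory
open scoped Topology ContDiff ENNReal ComplexConjugate

namespace Vale.Agent.P300.H86

/-- the signed density -/
noncomputable def qq (p : W → W) (j : Fin 2) (h : W → ℂ) (u : W) : ℂ :=
  if j = 0 then rr p 1 h u else - rr p 0 h u

theorem qq_of_Jac_eq_zero {p : W → W} {j : Fin 2} {h : W → ℂ} {u : W} (hJ : Jac p u = 0) :
    qq p j h u = 0 := by
  unfold qq rr; rw [hJ]; simp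

theorem rr_eq_zero {p : W → W} {b : Fin 2} {h : W → ℂ} {u : W} (h0 : h =ᶠ[𝓝 u] fun _ => 0) :
    rr p b h u = 0 := by
  have h4 : ∀ c, dbar c (fun _ => (0 : ℂ)) u = 0 := by
    intro c
    simp [dbar]
  unfold rr
  rw [dbar_congr h0, dbar_congr h0, h4, h4]
  simp

theorem qq_eq_zero {p : W → W} {j : Fin 2} {h : W → ℂ} {u : W} (h0 : h =ᶠ[𝓝 u] fun _ => 0) :
    qq p j h u = 0 := by
  unfold qq; rw [rr_eq_zero h0, rr_eq_zero h0]; simp

/-- the antilinear part of a real linear form -/
theorem dbar_general {h : W → ℂ} {u : W} (θ : W) :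
    fderiv ℝ h u θ + I * fderiv ℝ h u (I • θ) = conj (θ 0) * dbar 0 h u
      + conj (θ 1) * dbar 1 h u := by
  set L := fderiv ℝ h u with hL
  have h1 : ∀ (a : Fin 2) (z : ℂ), L (bs a z) + I * L (bs a (I * z))
      = conj z * (L (bs a 1) + I * L (bs a I)) := by
    intro a z
    have e1 : L (bs a z) = z.re * L (bs a 1) + z.im * L (bs a I) := by
      rw [bs_reim, map_add, map_smul, map_smul]; simp
    have e2 : L (bs a (I * z)) = - z.im * L (bs a 1) + z.re * L (bs a I) := by
      rw [bs_reim, map_add, map_smul, map_smul]; simp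
    have e3 : conj z = z.re - z.im * I := by
      apply Complex.ext <;> simp
    rw [e1, e2, e3]
    linear_combination (z.im * L (bs a I)) * I_sq
  have h2 : L θ = L (bs 0 (θ 0)) + L (bs 1 (θ 1)) := by
    conv_lhs => rw [W_eq θ]
    rw [map_add]
  have h3 : L (I • θ) = L (bs 0 (I * θ 0)) + L (bs 1 (I * θ 1)) := by
    conv_lhs => rw [W_eq (I • θ)]
    rw [map_add]; rfl
  rw [h2, h3]
  unfold dbar
  rw [← hL]
  linear_combination h1 0 (θ 0) + h1 1 (θ 1)

/-- chain rule through a local inverse -/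
theorem chain {p : W → W} {D : Set W} (hD : IsOpen D) (hp : DifferentiableOn ℂ p D) {u : W}
    (hu : u ∈ D) (hJ : Jac p u ≠ 0) {e : OpenPartialHomeomorph W W} (he : u ∈ e.source)
    (hep : (e : W → W) = p) (hes : DifferentiableAt ℂ e.symm (p u)) {h : W → ℂ}
    (hh : DifferentiableAt ℝ h u) (j : Fin 2) :
    dbar j (fun w => h (e.symm w)) (p u) = qq p j h u / ((‖Jac p u‖ : ℂ) ^ 2) := by
  have hsu : e.symm (p u) = u := by rw [← hep]; exact e.left_inv he
  have hpd : DifferentiableAt ℂ p u := hp.differentiableAt (hD.mem_nhds hu)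
  set M := fderiv ℂ e.symm (p u) with hM
  -- `L ∘ M = id`
  have hLM : ∀ v, fderiv ℂ p u (M v) = v := by
    have h1 : HasFDerivAt (fun w => p (e.symm w)) ((fderiv ℂ p u).comp M) (p u) := by
      have h2 : HasFDerivAt p (fderiv ℂ p u) (e.symm (p u)) := by
        rw [hsu]; exact hpd.hasFDerivAt
      exact h2.comp (p u) hes.hasFDerivAt
    have h3 : (fun w => p (e.symm w)) =ᶠ[𝓝 (p u)] id := by
      have ht : p u ∈ e.target := by
        have := e.map_source he
        rwa [hep] at this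
      filter_upwards [e.open_target.mem_nhds ht] with w hw
      have := e.right_inv hw
      rw [hep] at this
      exact this
    have h4 : HasFDerivAt (fun w => p (e.symm w)) (ContinuousLinearMap.id ℂ W) (p u) :=
      (hasFDerivAt_id (p u)).congr_of_eventuallyEq h3
    intro v
    exact congrArg (fun L : W →L[ℂ] W => L v) (h1.unique h4)
  have hder : HasFDerivAt (fun w => h (e.symm w))
      ((fderiv ℝ h u).comp (M.restrictScalars ℝ)) (p u) := by
    have h2 : HasFDerivAt h (fderiv ℝ h u) (e.symm (p u)) := by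
      rw [hsu]; exact hh.hasFDerivAt
    exact h2.comp (p u) (hes.hasFDerivAt.restrictScalars ℝ)
  have hMI : M (bs j I) = I • M (bs j 1) := by
    have : bs j I = I • bs j 1 := by rw [← bs_smul, mul_one]
    rw [this, map_smul]
  set θ := M (bs j 1) with hθ
  have h5 : dbar j (fun w => h (e.symm w)) (p u) = conj (θ 0) * dbar 0 h u
      + conj (θ 1) * dbar 1 h u := by
    rw [← dbar_general]
    unfold dbar
    rw [hder.fderiv]
    simp only [ContinuousLinearMap.coe_comp, Function.comp_apply,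
      ContinuousLinearMap.coe_restrictScalars']
    rw [hMI]
  have h6 : fderiv ℂ p u θ = bs j 1 := hLM _
  have h7 : ∀ b, dp p b 0 u * θ 0 + dp p b 1 u * θ 1 = (bs j 1) b := by
    intro b
    rw [← h6]
    conv_rhs => rw [W_eq θ]
    have e0 : bs 0 (θ 0) = θ 0 • bs 0 1 := by rw [← bs_smul, mul_one]
    have e1 : bs 1 (θ 1) = θ 1 • bs 1 1 := by rw [← bs_smul, mul_one]
    rw [e0, e1, map_add, map_smul, map_smul]
    simp only [dp, Pi.add_apply, Pi.smul_apply, smul_eq_mul]
    ring
  have hJJ : ((‖Jac p u‖ : ℂ) ^ 2) = Jac p u * conj (Jac p u) := by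
    rw [Complex.mul_conj, Complex.normSq_eq_norm_sq]; push_cast; rfl
  have hJc : conj (Jac p u) ≠ 0 := by simpa using hJ
  have h70 := h7 0
  have h71 := h7 1
  rw [h5, hJJ]
  have hJd := Jac_dp (p := p) u
  unfold qq
  fin_cases j
  · simp only [Fin.zero_eta, if_true]
    have b0 : (bs 0 1 : W) 0 = 1 := by simp [bs]
    have b1 : (bs 0 1 : W) 1 = 0 := by simp [bs]
    simp only [Fin.zero_eta] at h70 h71
    rw [b0] at h70
    rw [b1] at h71
    have t0 : Jac p u * θ 0 = dp p 1 1 u := by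
      rw [hJd]; linear_combination dp p 1 1 u * h70 - dp p 0 1 u * h71
    have t1 : Jac p u * θ 1 = - dp p 1 0 u := by
      rw [hJd]; linear_combination (- dp p 1 0 u) * h70 + dp p 0 0 u * h71
    unfold rr
    rw [← t0, show dp p 1 0 u = -(Jac p u * θ 1) by rw [t1]; ring]
    simp only [map_mul, map_neg]
    field_simp
    ring
  · simp only [Fin.mk_one, Fin.isValue, one_ne_zero, if_false]
    have b0 : (bs 1 1 : W) 0 = 0 := by simp [bs]
    have b1 : (bs 1 1 : W) 1 = 1 := by simp [bs]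
    simp only [Fin.mk_one] at h70 h71
    rw [b0] at h70
    rw [b1] at h71
    have t0 : Jac p u * θ 0 = - dp p 0 1 u := by
      rw [hJd]; linear_combination dp p 1 1 u * h70 - dp p 0 1 u * h71
    have t1 : Jac p u * θ 1 = dp p 0 0 u := by
      rw [hJd]; linear_combination (- dp p 1 0 u) * h70 + dp p 0 0 u * h71
    unfold rr
    rw [← t1, show dp p 0 1 u = -(Jac p u * θ 0) by rw [t0]; ring]
    simp only [map_mul, map_neg]
    field_simp
    ring

namespace Aff

variable {n : ℕ} (S : Aff n)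

theorem p_diff (i : S.ι) : DifferentiableOn ℂ (S.p i) (S.D i) :=
  S.pr.differentiable.comp_differentiableOn (S.diff i)

/-- sums over the fibre are sums over the fibre in a chart -/
theorem tsum_chart {w : W} (hw : ∀ i, ∀ u ∈ S.D i, S.p i u = w → Jac (S.p i) u ≠ 0) (i : S.ι)
    (H : (Fin n → ℂ) → ℂ) (hH : ∀ v ∈ S.fib w, v ∉ S.f i '' S.D i → H v = 0) :
    ∑' v : S.fib w, H v = ∑' u : Sfib (S.D i) (S.p i) w, H (S.f i u) := by
  let φ : Sfib (S.D i) (S.p i) w → S.fib w := fun u => ⟨S.f i u, S.mem i u u.2.1, u.2.2.2⟩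
  have hφ : Function.Injective φ := by
    intro u u' h
    apply Subtype.ext
    exact S.inj i u.2.1 u'.2.1 (congrArg Subtype.val h)
  have := hφ.tsum_eq (f := fun v : S.fib w => H v) ?_
  · exact this.symm
  · intro v hv
    have h1 : (v : Fin n → ℂ) ∈ S.f i '' S.D i := by
      by_contra h
      exact hv (hH v v.2 h)
    obtain ⟨u, hu, huv⟩ := h1
    have hpu : S.p i u = w := by
      show S.pr (S.f i u) = w
      rw [huv]; exact v.2.2
    exact ⟨⟨u, hu, hw i u hu hpu, hpu⟩, Subtype.ext huv⟩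

/-- a local holomorphic section through each point of a noncritical fibre -/
theorem exists_section {w : W} (hw : ∀ i, ∀ u ∈ S.D i, S.p i u = w → Jac (S.p i) u ≠ 0)
    {v : Fin n → ℂ} (hv : v ∈ S.fib w) : ∃ s : W → (Fin n → ℂ), s w = v ∧
      DifferentiableAt ℂ s w ∧ (∀ᶠ w' in 𝓝 w, s w' ∈ S.Z ∧ S.pr (s w') = w') := by
  obtain ⟨i, u, hu, rfl⟩ := S.cover v hv.1
  have hpu : S.p i u = w := hv.2
  obtain ⟨e, hue, heD, hep, hes⟩ := exists_localInverse (S.openD i) (S.p_diff i) hu (hw i u hu hpu)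
  have hsu : e.symm w = u := by rw [← hpu, ← hep]; exact e.left_inv hue
  have ht : w ∈ e.target := by
    have := e.map_source hue
    rwa [hep, hpu] at this
  refine ⟨fun w' => S.f i (e.symm w'), by simp only [hsu], ?_, ?_⟩
  · rw [hpu] at hes
    refine DifferentiableAt.comp w ?_ hes
    rw [hsu]
    exact (S.diff i).differentiableAt ((S.openD i).mem_nhds hu)
  · filter_upwards [e.open_target.mem_nhds ht] with w' hw'
    have h1 := heD (e.map_target hw')
    refine ⟨S.mem i _ h1.1, ?_⟩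
    have := e.right_inv hw'
    rw [hep] at this
    exact this

/-- all sections through `v` agree near `w`. -/
theorem section_unique {w : W} {s : W → (Fin n → ℂ)} (hs : ContinuousAt s w)
    (hsZ : ∀ᶠ w' in 𝓝 w, s w' ∈ S.Z ∧ S.pr (s w') = w') {i : S.ι} {u : W} (hu : u ∈ S.D i)
    (huv : S.f i u = s w) {e : OpenPartialHomeomorph W W} (hue : u ∈ e.source)
    (hep : (e : W → W) = S.p i) :
    (fun w' => S.f i (e.symm w')) =ᶠ[𝓝 w] s := by
  have h1 := S.openImg i u hu e.source (e.open_source.mem_nhds hue)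
  rw [huv] at h1
  have h2 : Tendsto s (𝓝 w) (𝓝[S.Z] (s w)) :=
    tendsto_nhdsWithin_iff.2 ⟨hs, hsZ.mono fun _ h => h.1⟩
  filter_upwards [h2.eventually h1, hsZ] with w' h3 h4
  obtain ⟨u', ⟨hu'e, hu'D⟩, hu's⟩ := h3
  have h5 : e u' = w' := by
    rw [hep]
    show S.pr (S.f i u') = w'
    rw [hu's]; exact h4.2
  have h6 : e.symm w' = u' := by rw [← h5]; exact e.left_inv hu'e
  rw [h6]; exact hu's

end Aff

end Vale.Agent.P300.H86
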